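import Vale.Agent.P361.Gibbs

namespace Vale.Agent.P361

open Matrix Finset Filter

/-- A matrix with one possibly nonzero entry `c j` in each column `j`, in row `f j`. -/
def mono {ι : Type*} [DecidableEq ι] (f : ι → ι) (c : ι → ℝ) : Matrix ι ι ℝ :=
  Matrix.of fun i j => if i = f j then c j else 0

variable {Λ : Type*} [DecidableEq Λ] [Fintype Λ]

/-- Configurations of spins `S = s/2`: the value `a` at a site stands for `S^3 = s/2 - a`. -/
abbrev Cfg (s : ℕ) (Λ : Type*) := Λ → Fin (s + 1)

/-- `S^3` at site `x`. -/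
noncomputable def szM (s : ℕ) (x : Λ) : Matrix (Cfg s Λ) (Cfg s Λ) ℝ :=
  Matrix.diagonal fun σ => (s : ℝ) / 2 - (σ x : ℕ)

/-- The lowering operator `S^- = S^1 - i S^2` at site `x`: it maps the state with value `a` at `x`
to `sqrt ((a+1)(s-a))` times the state with value `a+1`. -/
noncomputable def smM (s : ℕ) (x : Λ) : Matrix (Cfg s Λ) (Cfg s Λ) ℝ :=
  mono (fun σ => Function.update σ x (σ x + 1))
    (fun σ => Real.sqrt ((((σ x : ℕ) : ℝ) + 1) * ((s : ℝ) - (σ x : ℕ))))

/-- The raising operator `S^+`, the transpose of `S^-`. -/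
noncomputable def spM (s : ℕ) (x : Λ) : Matrix (Cfg s Λ) (Cfg s Λ) ℝ := (smM s x)ᵀ

/-- `S_x · S_y = S^3_x S^3_y + (S^+_x S^-_y + S^-_x S^+_y)/2`. -/
noncomputable def heis (s : ℕ) (x y : Λ) : Matrix (Cfg s Λ) (Cfg s Λ) ℝ :=
  szM s x * szM s y + (2 : ℝ)⁻¹ • (spM s x * smM s y + smM s x * spM s y)

/-- The sites of the box `{-N, …, N}^3`. -/
abbrev Site (N : ℕ) := Fin 3 → Fin (2 * N + 1)

/-- The integer coordinates of a site of the box. -/
def pos {N : ℕ} (x : Site N) (i : Fin 3) : ℤ := (x i : ℤ) - N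

/-- The nearest neighbours of a site inside the box. -/
def nbrs {N : ℕ} (x : Site N) : Finset (Site N) :=
  Finset.univ.filter fun y => ∑ i, |pos x i - pos y i| = 1

/-- The free-boundary ferromagnetic Heisenberg Hamiltonian; the factor `1/2` makes each
edge count once. -/
noncomputable def ham (s N : ℕ) : Matrix (Cfg s (Site N)) (Cfg s (Site N)) ℝ :=
  -((2 : ℝ)⁻¹ • ∑ x : Site N, ∑ y ∈ nbrs x, heis s x y)

/-- The total magnetization. -/
noncomputable def mag (s N : ℕ) : Matrix (Cfg s (Site N)) (Cfg s (Site N)) ℝ :=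
  ∑ x : Site N, szM s x

/-- The finite-volume pressure. -/
noncomputable def pressureN (s : ℕ) (β : ℝ) (N : ℕ) (h : ℝ) : ℝ :=
  Real.log (NormedSpace.exp ((-β) • (ham s N - h • mag s N))).trace /
    (β * ((2 * N + 1 : ℕ) : ℝ) ^ 3)

/-- The pressure: the upper limit of the finite-volume pressures, hence their limit whenever
the limit exists. -/
noncomputable def pressure (s : ℕ) (β h : ℝ) : ℝ :=
  Filter.limsup (fun N => pressureN s β N h) Filter.atTop

/-- The spontaneous magnetization, the right derivative of the pressure at zero field. -/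
noncomputable def spontMag (s : ℕ) (β : ℝ) : ℝ :=
  derivWithin (pressure s β) (Set.Ioi 0) 0

end Vale.Agent.P361
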