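import Vale.Agent.P361.Spin

namespace Vale.Agent.P361

open Matrix Finset MeasureTheory Real

variable {N : ℕ} {s : ℕ}

theorem pos_injective : Function.Injective (pos (N := N)) := by
  intro x y h
  funext i
  have := congrFun h i
  simp only [pos] at this
  exact Fin.ext (by omega)

theorem mem_nbrs_ne {x y : Site N} (h : y ∈ nbrs x) : x ≠ y := by
  rintro rfl
  simp [nbrs] at h

theorem ne_and_mem_comm {x y : Site N} (h : y ∈ nbrs x) : x ∈ nbrs y := by
  simp only [nbrs, Finset.mem_filter, Finset.mem_univ, true_and] at h ⊢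
  simpa [abs_sub_comm] using h

theorem card_site (N : ℕ) : (Fintype.card (Site N) : ℝ) = ((2 * N + 1 : ℕ) : ℝ) ^ 3 := by
  simp

/-- The six unit vectors. -/
def units : Finset (Fin 3 → ℤ) :=
  (Finset.univ : Finset (Fin 3)).image (fun i => Pi.single i 1) ∪
    (Finset.univ : Finset (Fin 3)).image (fun i => Pi.single i (-1))

theorem mem_units {d : Fin 3 → ℤ} (h : ∑ i, |d i| = 1) : d ∈ units := by
  rw [Fin.sum_univ_three] at h
  obtain ⟨a, b, c, rfl⟩ : ∃ a b c : ℤ, d = ![a, b, c] :=
    ⟨d 0, d 1, d 2, by funext i; fin_cases i <;> rfl⟩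
  simp only [Matrix.cons_val_zero, Matrix.cons_val_one, Matrix.cons_val] at h
  have hcases : (|a| = 1 ∧ b = 0 ∧ c = 0) ∨ (a = 0 ∧ |b| = 1 ∧ c = 0) ∨
      (a = 0 ∧ b = 0 ∧ |c| = 1) := by
    have := abs_choice a; have := abs_choice b; have := abs_choice c
    have := abs_nonneg a; have := abs_nonneg b; have := abs_nonneg c
    omega
  rcases hcases with ⟨ha, rfl, rfl⟩ | ⟨rfl, ha, rfl⟩ | ⟨rfl, rfl, ha⟩ <;>
    rcases (abs_eq (zero_le_one (α := ℤ))).1 ha with rfl | rfl <;> decide

theorem sum_units (k : Fin 3 → ℝ) :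
    ∑ d ∈ units, (∑ i, k i * (d i : ℝ)) ^ 2 = 2 * ∑ i, k i ^ 2 := by
  have hsingle : ∀ (i : Fin 3) (c : ℤ), (∑ j, k j * ((Pi.single i c : Fin 3 → ℤ) j : ℝ)) =
      k i * (c : ℝ) := by
    intro i c
    rw [Finset.sum_eq_single i] <;> simp +contextual
  rw [units, Finset.sum_union, Finset.sum_image, Finset.sum_image]
  · simp only [hsingle]
    push_cast
    simp only [mul_one, mul_neg, neg_sq]
    ring
  · intro a _ b _ h
    by_contra hne
    have := congrFun h a
    simp [hne] at this
  · intro a _ b _ h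
    by_contra hne
    have := congrFun h a
    simp [hne] at this
  · decide

/-- `k · x`. -/
noncomputable def phase (k : Fin 3 → ℝ) (x : Site N) : ℝ := ∑ i, k i * (pos x i : ℝ)

theorem sum_nbrs_le (k : Fin 3 → ℝ) (x : Site N) :
    ∑ y ∈ nbrs x, (phase k x - phase k y) ^ 2 ≤ 2 * ∑ i, k i ^ 2 := by
  rw [← sum_units k]
  have heq : ∀ y : Site N, (phase k x - phase k y) ^ 2 =
      (∑ i, k i * (((pos x - pos y) i : ℤ) : ℝ)) ^ 2 := by
    intro y
    simp only [phase, ← Finset.sum_sub_distrib, Pi.sub_apply]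
    push_cast
    simp only [mul_sub]
  simp only [heq]
  rw [← Finset.sum_image (f := fun d : Fin 3 → ℤ => (∑ i, k i * (d i : ℝ)) ^ 2)
    (g := fun y => pos x - pos y)]
  · refine Finset.sum_le_sum_of_subset_of_nonneg ?_ (fun _ _ _ => sq_nonneg _)
    intro d hd
    obtain ⟨y, hy, rfl⟩ := Finset.mem_image.1 hd
    simp only [nbrs, Finset.mem_filter] at hy
    exact mem_units (by simpa using hy.2)
  · intro a _ b _ h
    exact pos_injective (sub_right_injective h)

theorem card_nbrs_le (x : Site N) : (nbrs x).card ≤ 6 := by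
  have h : (nbrs x).image (fun y => pos x - pos y) ⊆ units := by
    intro d hd
    obtain ⟨y, hy, rfl⟩ := Finset.mem_image.1 hd
    simp only [nbrs, Finset.mem_filter] at hy
    exact mem_units (by simpa using hy.2)
  have h2 := Finset.card_le_card h
  rw [Finset.card_image_of_injective _
    (fun a b hab => pos_injective (sub_right_injective hab))] at h2
  exact h2.trans (by decide)

/-- `H - h M`. -/
noncomputable def energy (s N : ℕ) (h : ℝ) : Matrix (Cfg s (Site N)) (Cfg s (Site N)) ℝ :=
  ham s N - h • mag s N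

theorem energy_isSymm (h : ℝ) : (energy s N h).IsSymm := by
  unfold Matrix.IsSymm energy ham mag
  simp only [transpose_sub, transpose_neg, transpose_smul, transpose_sum, szM_transpose]
  have : ∀ x : Site N, ∑ y ∈ nbrs x, (heis s x y)ᵀ = ∑ y ∈ nbrs x, heis s x y := fun x =>
    Finset.sum_congr rfl fun y hy => heis_transpose (mem_nbrs_ne hy)
  simp only [this]

/-- The mean magnetization per site. -/
noncomputable def magDensity (s : ℕ) (β : ℝ) (N : ℕ) (h : ℝ) : ℝ :=
  gibbs β (energy s N h) (mag s N) / (Fintype.card (Site N) : ℝ)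

theorem gibbs_mag (β h : ℝ) :
    gibbs β (energy s N h) (mag s N) = (Fintype.card (Site N) : ℝ) * magDensity s β N h := by
  rw [magDensity, mul_div_cancel₀]
  exact_mod_cast Fintype.card_ne_zero

theorem heis_expect_le (β h : ℝ) {x y : Site N} (hxy : x ≠ y) :
    gibbs β (energy s N h) ((2 : ℝ) • (szM s x * szM s y) + spM s x * smM s y) ≤
      2 * ((s : ℝ) / 2) ^ 2 := by
  have hK := energy_isSymm (s := s) (N := N) h
  have h1 := gibbs_le β hK _ _ (sz_sz_quad (s := s) x y)
  have h2 := gibbs_le β hK _ _ (exchange_quad (s := s) hxy)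
  rw [two_smul, add_assoc, gibbs_add]
  linarith

theorem energy_bracket (u : Site N → ℝ) (β h : ℝ) :
    gibbs β (energy s N h) (wave s u * (energy s N h * (wave s u)ᵀ - (wave s u)ᵀ * energy s N h) -
      (energy s N h * (wave s u)ᵀ - (wave s u)ᵀ * energy s N h) * wave s u) =
    h * ∑ x, 2 * u x ^ 2 * gibbs β (energy s N h) (szM s x) +
      2⁻¹ * ∑ x, ∑ y ∈ nbrs x, (u x - u y) ^ 2 *
        gibbs β (energy s N h) ((2 : ℝ) • (szM s x * szM s y) + spM s x * smM s y) := by
  have hK := energy_isSymm (s := s) (N := N) h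
  set A := wave s u with hA
  set ev := gibbs β (energy s N h) with hev
  set L : Matrix (Cfg s (Site N)) (Cfg s (Site N)) ℝ →ₗ[ℝ]
      Matrix (Cfg s (Site N)) (Cfg s (Site N)) ℝ :=
    { toFun := fun P => A * (P * Aᵀ - Aᵀ * P) - (P * Aᵀ - Aᵀ * P) * A
      map_add' := fun P Q => by
        simp only [Matrix.add_mul, Matrix.mul_add, Matrix.sub_mul, Matrix.mul_sub]; abel
      map_smul' := fun c P => by
        simp only [Matrix.smul_mul, Matrix.mul_smul, ← smul_sub, RingHom.id_apply] } with hL
  show ev (L (energy s N h)) = _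
  have hmag : ev (L (mag s N)) = -∑ x, 2 * u x ^ 2 * ev (szM s x) := by
    show ev (A * (mag s N * Aᵀ - Aᵀ * mag s N) - (mag s N * Aᵀ - Aᵀ * mag s N) * A) = _
    rw [mag, hA, wave_sz_bracket, Matrix.mul_neg, Matrix.neg_mul, ← neg_sub',
      wave_bracket, hev, gibbs_neg, gibbs_sum]
    simp only [gibbs_smul]
  have hedge : ∀ x y : Site N, x ≠ y → ev (L (heis s x y)) =
      -((u x - u y) ^ 2 * ev ((2 : ℝ) • (szM s x * szM s y) + spM s x * smM s y)) := by
    intro x y hxy
    have ht : ev (smM s x * spM s y) = ev (spM s x * smM s y) := by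
      rw [hev, ← gibbs_transpose β hK, transpose_mul, spM_transpose, smM_transpose,
        ← sp_sm_comm hxy]
    show ev (A * (heis s x y * Aᵀ - Aᵀ * heis s x y) - (heis s x y * Aᵀ - Aᵀ * heis s x y) * A) = _
    rw [hA, wave_heis_bracket u hxy]
    simp only [hev, gibbs_neg, gibbs_smul, gibbs_add, gibbs_sub] at ht ⊢
    rw [ht]
    ring
  have hexpand : L (energy s N h) =
      -((2 : ℝ)⁻¹ • ∑ x : Site N, ∑ y ∈ nbrs x, L (heis s x y)) - h • L (mag s N) := by
    simp only [energy, ham, map_sub, map_neg, map_smul, map_sum]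
  rw [hexpand]
  rw [hev] at hmag hedge ⊢
  rw [gibbs_sub, gibbs_neg, gibbs_smul, gibbs_smul, hmag, gibbs_sum]
  simp only [gibbs_sum]
  rw [Finset.sum_congr rfl fun x _ => Finset.sum_congr rfl fun y hy =>
    hedge x y (mem_nbrs_ne hy)]
  simp only [Finset.sum_neg_distrib]
  ring

theorem sum_exp_neg_le (X : ℝ) (hX : 0 < X) (K : ℕ) :
    ∑ j ∈ Finset.range K, Real.exp (-((j : ℝ) + 1) * X) ≤ 1 / (Real.exp X - 1) := by
  have hE : 0 < Real.exp X - 1 := sub_pos.2 (Real.one_lt_exp_iff.2 hX)
  rw [le_div_iff₀ hE]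
  have h : ∀ K : ℕ, (∑ j ∈ Finset.range K, Real.exp (-((j : ℝ) + 1) * X)) * (Real.exp X - 1) =
      1 - Real.exp (-(K : ℝ) * X) := by
    intro K
    induction K with
    | zero => simp
    | succ K ih =>
      have e : Real.exp (-((K : ℝ) + 1) * X) * Real.exp X = Real.exp (-(K : ℝ) * X) := by
        rw [← Real.exp_add]; congr 1; ring
      rw [Finset.sum_range_succ, add_mul, ih]
      push_cast
      linear_combination e
  rw [h]
  linarith [Real.exp_pos (-(K : ℝ) * X)]

/-- The pointwise inequality in `k`. -/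
theorem spin_wave_bound (hs : 1 ≤ s) {β : ℝ} (hβ : 0 < β) {h : ℝ} (hh : 0 < h)
    (hm : 0 < magDensity s β N h) (k : Fin 3 → ℝ) (K : ℕ) :
    2 * (Fintype.card (Site N) : ℝ) * magDensity s β N h *
        (∑ j ∈ Finset.range K, Real.exp (-((j : ℝ) + 1) * β * h) *
          ∏ i, Real.exp (-(((j : ℝ) + 1) * β * ((s : ℝ) / 2) ^ 2 / magDensity s β N h) * k i ^ 2))
      ≤ ∑ x, ∑ y, Real.cos (phase k x - phase k y) *
          gibbs β (energy s N h) (smM s x * spM s y) := by
  set m := magDensity s β N h with hm_def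
  set n := (Fintype.card (Site N) : ℝ) with hn
  have hn0 : 0 < n := by rw [hn]; exact_mod_cast Fintype.card_pos
  have hK := energy_isSymm (s := s) (N := N) h
  set uc : Site N → ℝ := fun x => Real.cos (phase k x) with huc
  set us : Site N → ℝ := fun x => Real.sin (phase k x) with hus
  set ev := gibbs β (energy s N h) with hev
  have hD : ev (wave s uc * (wave s uc)ᵀ - (wave s uc)ᵀ * wave s uc) +
      ev (wave s us * (wave s us)ᵀ - (wave s us)ᵀ * wave s us) = 2 * n * m := by
    rw [wave_bracket, wave_bracket, hev, gibbs_sum, gibbs_sum, ← Finset.sum_add_distrib]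
    simp only [gibbs_smul, ← add_mul, huc, hus, ← mul_add, Real.cos_sq_add_sin_sq, mul_one]
    rw [← Finset.mul_sum, ← gibbs_sum, show (∑ x, szM s x) = mag s N from rfl, gibbs_mag]
    rw [hn, hm_def]; ring
  set q := ∑ i, k i ^ 2 with hq
  have hq0 : 0 ≤ q := Finset.sum_nonneg fun i _ => sq_nonneg _
  set X := β * (h + ((s : ℝ) / 2) ^ 2 * q / m) with hXdef
  have hX : 0 < X := mul_pos hβ (add_pos_of_pos_of_nonneg hh (by positivity))
  have hCle : ev (wave s uc * (energy s N h * (wave s uc)ᵀ - (wave s uc)ᵀ * energy s N h) -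
      (energy s N h * (wave s uc)ᵀ - (wave s uc)ᵀ * energy s N h) * wave s uc) +
    ev (wave s us * (energy s N h * (wave s us)ᵀ - (wave s us)ᵀ * energy s N h) -
      (energy s N h * (wave s us)ᵀ - (wave s us)ᵀ * energy s N h) * wave s us) ≤
      2 * h * n * m + 2 * ((s : ℝ) / 2) ^ 2 * n * q := by
    rw [hev, energy_bracket, energy_bracket]
    have h1 : h * ∑ x, 2 * uc x ^ 2 * gibbs β (energy s N h) (szM s x) +
        h * ∑ x, 2 * us x ^ 2 * gibbs β (energy s N h) (szM s x) = 2 * h * n * m := by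
      rw [← mul_add, ← Finset.sum_add_distrib]
      simp only [← add_mul, huc, hus, ← mul_add, Real.cos_sq_add_sin_sq, mul_one]
      rw [← Finset.mul_sum, ← gibbs_sum, show (∑ x, szM s x) = mag s N from rfl, gibbs_mag]
      rw [hn, hm_def]; ring
    have h2 : 2⁻¹ * ∑ x, ∑ y ∈ nbrs x, (uc x - uc y) ^ 2 *
          gibbs β (energy s N h) ((2 : ℝ) • (szM s x * szM s y) + spM s x * smM s y) +
        2⁻¹ * ∑ x, ∑ y ∈ nbrs x, (us x - us y) ^ 2 *
          gibbs β (energy s N h) ((2 : ℝ) • (szM s x * szM s y) + spM s x * smM s y) ≤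
        2 * ((s : ℝ) / 2) ^ 2 * n * q := by
      rw [← mul_add, ← Finset.sum_add_distrib]
      have hx : ∀ x, ∑ y ∈ nbrs x, (uc x - uc y) ^ 2 *
            gibbs β (energy s N h) ((2 : ℝ) • (szM s x * szM s y) + spM s x * smM s y) +
          ∑ y ∈ nbrs x, (us x - us y) ^ 2 *
            gibbs β (energy s N h) ((2 : ℝ) • (szM s x * szM s y) + spM s x * smM s y) ≤
          2 * ((s : ℝ) / 2) ^ 2 * (2 * q) := by
        intro x
        refine le_trans ?_ (mul_le_mul_of_nonneg_left (sum_nbrs_le k x) (by positivity))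
        rw [← Finset.sum_add_distrib, Finset.mul_sum]
        refine Finset.sum_le_sum fun y hy => ?_
        rw [← add_mul]
        have hb := heis_expect_le (s := s) β h (mem_nbrs_ne hy)
        have hu : (uc x - uc y) ^ 2 + (us x - us y) ^ 2 =
            2 - 2 * Real.cos (phase k x - phase k y) := by
          simp only [huc, hus, Real.cos_sub]
          linear_combination Real.cos_sq_add_sin_sq (phase k x) +
            Real.cos_sq_add_sin_sq (phase k y)
        have hle : (uc x - uc y) ^ 2 + (us x - us y) ^ 2 ≤ (phase k x - phase k y) ^ 2 := by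
          rw [hu]
          nlinarith [Real.one_sub_sq_div_two_le_cos (x := phase k x - phase k y)]
        nlinarith [mul_le_mul_of_nonneg_left hb
          (add_nonneg (sq_nonneg (uc x - uc y)) (sq_nonneg (us x - us y))),
          mul_le_mul_of_nonneg_right hle (show (0:ℝ) ≤ 2 * ((s : ℝ) / 2) ^ 2 by positivity)]
      refine le_trans (mul_le_mul_of_nonneg_left (Finset.sum_le_sum fun x _ => hx x)
        (by norm_num)) (le_of_eq ?_)
      rw [Finset.sum_const, nsmul_eq_mul, Finset.card_univ, ← hn]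
      ring
    linarith
  have hb := bose_bound β hK (wave s uc) (wave s us) X hX (by
    refine le_trans (mul_le_mul_of_nonneg_left hCle hβ.le) (le_of_eq ?_)
    rw [← hev, hD, hXdef]
    field_simp)
  rw [← hev, hD] at hb
  have hexp : ∀ j : ℕ, Real.exp (-((j : ℝ) + 1) * β * h) *
      ∏ i, Real.exp (-(((j : ℝ) + 1) * β * ((s : ℝ) / 2) ^ 2 / m) * k i ^ 2) =
      Real.exp (-((j : ℝ) + 1) * X) := by
    intro j
    rw [← Real.exp_sum, ← Real.exp_add, ← Finset.mul_sum, ← hq, hXdef]
    congr 1
    field_simp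
    ring
  simp only [hexp]
  refine le_trans (mul_le_mul_of_nonneg_left (sum_exp_neg_le X hX K) (by positivity)) ?_
  rw [mul_one_div]
  refine le_trans hb (le_of_eq ?_)
  rw [wave_transpose, wave_transpose]
  simp only [wave, Matrix.sum_mul, Matrix.mul_sum, Matrix.smul_mul,
    Matrix.mul_smul, Finset.smul_sum, smul_smul, hev, gibbs_sum, gibbs_smul,
    ← Finset.sum_add_distrib]
  rw [Finset.sum_comm]
  refine Finset.sum_congr rfl fun x _ => Finset.sum_congr rfl fun y _ => ?_
  simp only [huc, hus, Real.cos_sub]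
  ring

/-- One-dimensional Lebesgue measure on `[-π, π]`. -/
noncomputable def arc : Measure ℝ := volume.restrict (Set.Icc (-π) π)

/-- The Brillouin zone. -/
noncomputable def zone : Measure (Fin 3 → ℝ) := Measure.pi fun _ => arc

instance : IsFiniteMeasure arc :=
  ⟨by rw [arc, Measure.restrict_apply_univ]; exact measure_Icc_lt_top⟩

instance : IsFiniteMeasure zone := by unfold zone; infer_instance

theorem integral_arc (f : ℝ → ℂ) : ∫ t, f t ∂arc = ∫ t in (-π)..π, f t := by
  rw [arc, integral_Icc_eq_integral_Ioc, intervalIntegral.integral_of_le (by linarith [pi_pos])]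

theorem integral_cos_phase (x y : Site N) :
    ∫ k, Real.cos (phase k x - phase k y) ∂zone = if x = y then (2 * π) ^ 3 else 0 := by
  have hprod : ∫ k, (∏ i, Complex.exp (((pos x i - pos y i : ℤ) : ℂ) * Complex.I * (k i : ℂ)))
      ∂zone = ∏ i, ∫ t, Complex.exp (((pos x i - pos y i : ℤ) : ℂ) * Complex.I * (t : ℂ)) ∂arc :=
    integral_fintype_prod_eq_prod
      (fun i (t : ℝ) => Complex.exp (((pos x i - pos y i : ℤ) : ℂ) * Complex.I * (t : ℂ)))
  have hre : ∀ k : Fin 3 → ℝ, Real.cos (phase k x - phase k y) =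
      (∏ i, Complex.exp (((pos x i - pos y i : ℤ) : ℂ) * Complex.I * (k i : ℂ))).re := by
    intro k
    rw [← Complex.exp_sum]
    have : ∑ i, ((pos x i - pos y i : ℤ) : ℂ) * Complex.I * (k i : ℂ) =
        ((phase k x - phase k y : ℝ) : ℂ) * Complex.I := by
      simp only [phase, ← Finset.sum_sub_distrib]
      push_cast
      rw [Finset.sum_mul]
      exact Finset.sum_congr rfl fun i _ => by ring
    rw [this, Complex.exp_ofReal_mul_I_re]
  have hint : Integrable (fun k : Fin 3 → ℝ =>
      ∏ i, Complex.exp (((pos x i - pos y i : ℤ) : ℂ) * Complex.I * (k i : ℂ))) zone := by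
    refine Integrable.of_bound (Continuous.aestronglyMeasurable (by fun_prop)) 1 ?_
    refine Filter.Eventually.of_forall fun k => ?_
    rw [norm_prod]
    refine le_of_eq (Finset.prod_eq_one fun i _ => ?_)
    rw [Complex.norm_exp]
    simp
  simp only [hre]
  have := integral_re hint
  simp only [RCLike.re_eq_complex_re] at this
  rw [this, hprod]
  split
  · next h =>
    subst h
    have hA : arc.real Set.univ = 2 * π := by
      simp [arc, two_mul, pi_pos.le]
    simp [Complex.mul_re, Complex.mul_im, pow_succ, hA]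
  · next h =>
    obtain ⟨i, hi⟩ := Function.ne_iff.1 (pos_injective.ne h)
    have hd : ((pos x i - pos y i : ℤ) : ℂ) * Complex.I ≠ 0 :=
      mul_ne_zero (by exact_mod_cast sub_ne_zero.2 hi) Complex.I_ne_zero
    rw [Finset.prod_eq_zero (Finset.mem_univ i), Complex.zero_re]
    rw [integral_arc, integral_exp_mul_complex hd]
    have hper : Complex.exp (((pos x i - pos y i : ℤ) : ℂ) * Complex.I * ((π : ℝ) : ℂ)) =
        Complex.exp (((pos x i - pos y i : ℤ) : ℂ) * Complex.I * ((-π : ℝ) : ℂ)) := by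
      rw [Complex.exp_eq_exp_iff_exists_int]
      exact ⟨pos x i - pos y i, by push_cast; ring⟩
    rw [hper, sub_self, zero_div]

/-- `∫_{-π}^{π} exp(-a t²)`. -/
noncomputable def gauss (a : ℝ) : ℝ := ∫ t in (-π)..π, Real.exp (-a * t ^ 2)

theorem gauss_nonneg (a : ℝ) : 0 ≤ gauss a :=
  intervalIntegral.integral_nonneg (by linarith [pi_pos]) fun _ _ => (Real.exp_pos _).le

theorem gauss_antitone {a b : ℝ} (hab : a ≤ b) : gauss b ≤ gauss a := by
  refine intervalIntegral.integral_mono_on (by linarith [pi_pos])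
    ((by fun_prop : Continuous _).intervalIntegrable _ _)
    ((by fun_prop : Continuous _).intervalIntegrable _ _) fun t _ => ?_
  exact Real.exp_le_exp.2 (by nlinarith [sq_nonneg t])

theorem smsp_le (β h : ℝ) (x : Site N) :
    gibbs β (energy s N h) (smM s x * spM s x) ≤
      (s : ℝ) * ((s : ℝ) / 2 - gibbs β (energy s N h) (szM s x)) := by
  have hK := energy_isSymm (s := s) (N := N) h
  have h2 : gibbs β (energy s N h)
      (diagonal fun σ : Cfg s (Site N) => (s : ℝ) * ((σ x : ℕ) : ℝ)) =
      (s : ℝ) * ((s : ℝ) / 2 - gibbs β (energy s N h) (szM s x)) := by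
    have : (diagonal fun σ : Cfg s (Site N) => (s : ℝ) * ((σ x : ℕ) : ℝ)) =
        (s : ℝ) • (((s : ℝ) / 2) • (1 : Matrix (Cfg s (Site N)) (Cfg s (Site N)) ℝ)
          - szM s x) := by
      rw [szM, ← diagonal_one, ← diagonal_smul, diagonal_sub, ← diagonal_smul]
      refine congrArg _ (funext fun σ => ?_)
      simp only [Pi.smul_apply, smul_eq_mul]
      ring
    rw [this, gibbs_smul, gibbs_sub, gibbs_smul, gibbs_one β hK, mul_one]
  rw [← h2, sm_mul_sp]
  refine le_gibbs_of_diag β hK _ _ fun σ => ?_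
  rcases Nat.eq_zero_or_pos (σ x : ℕ) with h0 | h0
  · simp [h0]
  · have h1 : (1 : ℝ) ≤ (σ x : ℕ) := by exact_mod_cast h0
    nlinarith

theorem magDensity_le (β h : ℝ) : magDensity s β N h ≤ (s : ℝ) / 2 := by
  have hK := energy_isSymm (s := s) (N := N) h
  rw [magDensity, div_le_iff₀ (by exact_mod_cast Fintype.card_pos), mag, gibbs_sum]
  refine le_trans (Finset.sum_le_sum (g := fun _ => (s : ℝ) / 2) fun x _ => ?_) ?_
  · refine gibbs_le β hK _ _ fun v => ?_
    simp only [szM, dotProduct, mulVec_diagonal, Finset.mul_sum]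
    refine Finset.sum_le_sum fun σ _ => ?_
    nlinarith [mul_self_nonneg (v σ), mul_nonneg (mul_self_nonneg (v σ))
      (Nat.cast_nonneg (α := ℝ) (σ x : ℕ))]
  · rw [Finset.sum_const, nsmul_eq_mul, Finset.card_univ, mul_comm]

/-- The finite-volume spin-wave inequality. -/
theorem finite_volume_bound (hs : 1 ≤ s) {β : ℝ} (hβ : 0 < β) {h : ℝ} (hh : 0 < h)
    (hm : 0 < magDensity s β N h) (K : ℕ) :
    magDensity s β N h * ∑ j ∈ Finset.range K, Real.exp (-((j : ℝ) + 1) * β * h) *
        gauss (((j : ℝ) + 1) * β * ((s : ℝ) / 2) ^ 2 / magDensity s β N h) ^ 3 ≤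
      (2 * π) ^ 3 * ((s : ℝ) / 2) * ((s : ℝ) / 2 - magDensity s β N h) := by
  set m := magDensity s β N h with hm_def
  set n := (Fintype.card (Site N) : ℝ) with hn
  have hn0 : 0 < n := by rw [hn]; exact_mod_cast Fintype.card_pos
  have hintc : ∀ x y : Site N, Integrable (fun k => Real.cos (phase k x - phase k y)) zone := by
    intro x y
    refine Integrable.of_bound (Continuous.aestronglyMeasurable (by unfold phase; fun_prop)) 1
      (Filter.Eventually.of_forall fun k => ?_)
    rw [Real.norm_eq_abs]; exact Real.abs_cos_le_one _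
  have hinte : ∀ j : ℕ, Integrable (fun k : Fin 3 → ℝ =>
      ∏ i, Real.exp (-(((j : ℝ) + 1) * β * ((s : ℝ) / 2) ^ 2 / m) * k i ^ 2)) zone := by
    intro j
    refine Integrable.of_bound (Continuous.aestronglyMeasurable (by fun_prop)) 1
      (Filter.Eventually.of_forall fun k => ?_)
    rw [norm_prod]
    refine Finset.prod_le_one (fun i _ => norm_nonneg _) fun i _ => ?_
    rw [Real.norm_eq_abs, abs_of_pos (Real.exp_pos _), Real.exp_le_one_iff, neg_mul, neg_nonpos]
    positivity
  have hI := integral_mono (μ := zone)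
    ((integrable_finsetSum _ fun j _ => (hinte j).const_mul _).const_mul _)
    (integrable_finsetSum _ fun x _ => integrable_finsetSum _ fun y _ =>
      (hintc x y).mul_const _)
    (fun k => spin_wave_bound hs hβ hh hm k K)
  rw [integral_const_mul, integral_finsetSum _ fun j _ => (hinte j).const_mul _,
    integral_finsetSum _ fun x _ => integrable_finsetSum _ fun y _ =>
      (hintc x y).mul_const _] at hI
  simp only [integral_const_mul, integral_finsetSum _ fun y _ => (hintc _ y).mul_const _,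
    integral_mul_const, integral_cos_phase, ite_mul, zero_mul, Finset.sum_ite_eq,
    Finset.mem_univ, if_true] at hI
  have hg : ∀ j : ℕ, ∫ k, ∏ i, Real.exp (-(((j : ℝ) + 1) * β * ((s : ℝ) / 2) ^ 2 / m) * k i ^ 2)
      ∂zone = gauss (((j : ℝ) + 1) * β * ((s : ℝ) / 2) ^ 2 / m) ^ 3 := by
    intro j
    rw [zone, integral_fintype_prod_eq_prod
      (fun (_ : Fin 3) (t : ℝ) => Real.exp (-(((j : ℝ) + 1) * β * ((s : ℝ) / 2) ^ 2 / m) * t ^ 2)),
      Finset.prod_const, Finset.card_univ, Fintype.card_fin]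
    rw [gauss, arc, integral_Icc_eq_integral_Ioc,
      intervalIntegral.integral_of_le (by linarith [pi_pos])]
  simp only [hg, ← hm_def, ← hn] at hI
  rw [← Finset.mul_sum] at hI
  have hsum : ∑ x, gibbs β (energy s N h) (smM s x * spM s x) ≤
      (s : ℝ) * n * ((s : ℝ) / 2 - m) := by
    refine le_trans (Finset.sum_le_sum fun x _ => smsp_le β h x) (le_of_eq ?_)
    rw [← Finset.mul_sum, Finset.sum_sub_distrib, Finset.sum_const, nsmul_eq_mul,
      Finset.card_univ, ← hn, ← gibbs_sum, show (∑ x, szM s x) = mag s N from rfl, gibbs_mag,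
      ← hn, ← hm_def]
    ring
  have := le_trans hI (mul_le_mul_of_nonneg_left hsum (by positivity))
  refine le_of_mul_le_mul_left ?_ (show (0 : ℝ) < 2 * n by positivity)
  linarith

end Vale.Agent.P361
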