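import Mathlib

namespace Vale.Agent.P361

open Matrix Finset

variable {ι : Type*} [Fintype ι] [DecidableEq ι]

/-- The partition function `Tr exp(-β K)`. -/
noncomputable def partitionFn (β : ℝ) (K : Matrix ι ι ℝ) : ℝ :=
  (NormedSpace.exp ((-β) • K)).trace

/-- The Gibbs expectation `Tr(exp(-β K) X) / Tr exp(-β K)`. -/
noncomputable def gibbs (β : ℝ) (K X : Matrix ι ι ℝ) : ℝ :=
  (NormedSpace.exp ((-β) • K) * X).trace / partitionFn β K

/-- A spectral form of a real symmetric matrix. -/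
theorem exists_diag (K : Matrix ι ι ℝ) (hK : K.IsSymm) :
    ∃ (U : Matrix ι ι ℝ) (e : ι → ℝ), Uᵀ * U = 1 ∧ U * Uᵀ = 1 ∧
      K = U * diagonal e * Uᵀ := by
  have h : K.IsHermitian := by
    unfold Matrix.IsHermitian
    rw [conjTranspose_eq_transpose_of_trivial]
    exact hK
  refine ⟨(h.eigenvectorUnitary : Matrix ι ι ℝ), h.eigenvalues, ?_, ?_, ?_⟩
  · have := Unitary.coe_star_mul_self h.eigenvectorUnitary
    rwa [star_eq_conjTranspose, conjTranspose_eq_transpose_of_trivial] at this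
  · have := Unitary.mul_star_self_of_mem h.eigenvectorUnitary.2
    rwa [star_eq_conjTranspose, conjTranspose_eq_transpose_of_trivial] at this
  · conv_lhs => rw [h.spectral_theorem, Unitary.conjStarAlgAut_apply]
    rw [star_eq_conjTranspose, conjTranspose_eq_transpose_of_trivial]
    rfl

theorem exp_smul_eq (β : ℝ) (U : Matrix ι ι ℝ) (e : ι → ℝ) (h1 : Uᵀ * U = 1)
    (h2 : U * Uᵀ = 1) :
    NormedSpace.exp ((-β) • (U * diagonal e * Uᵀ)) =
      U * diagonal (fun i => Real.exp (-β * e i)) * Uᵀ := by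
  have hinv : U⁻¹ = Uᵀ := inv_eq_left_inv h1
  have hu : IsUnit U := ⟨⟨U, Uᵀ, h2, h1⟩, rfl⟩
  rw [← Matrix.smul_mul, ← Matrix.mul_smul, ← diagonal_smul, ← hinv, Matrix.exp_conj _ _ hu,
    Matrix.exp_diagonal]
  congr 3
  funext i
  rw [Pi.exp_def, Real.exp_eq_exp_ℝ]
  simp

theorem partitionFn_eq (β : ℝ) (U : Matrix ι ι ℝ) (e : ι → ℝ) (h1 : Uᵀ * U = 1)
    (h2 : U * Uᵀ = 1) :
    partitionFn β (U * diagonal e * Uᵀ) = ∑ i, Real.exp (-β * e i) := by
  rw [partitionFn, exp_smul_eq β U e h1 h2, trace_mul_comm, ← Matrix.mul_assoc, h1,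
    Matrix.one_mul, trace_diagonal]

theorem gibbs_eq (β : ℝ) (U : Matrix ι ι ℝ) (e : ι → ℝ) (h1 : Uᵀ * U = 1)
    (h2 : U * Uᵀ = 1) (X : Matrix ι ι ℝ) :
    gibbs β (U * diagonal e * Uᵀ) X =
      (∑ i, Real.exp (-β * e i) * (Uᵀ * X * U) i i) / ∑ i, Real.exp (-β * e i) := by
  rw [gibbs, partitionFn_eq β U e h1 h2, exp_smul_eq β U e h1 h2]
  congr 1
  rw [Matrix.mul_assoc, Matrix.mul_assoc, trace_mul_comm, Matrix.mul_assoc, Matrix.trace]
  simp [diagonal_mul, Matrix.mul_assoc]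

variable (β : ℝ) {K : Matrix ι ι ℝ}

theorem partitionFn_pos [Nonempty ι] (hK : K.IsSymm) : 0 < partitionFn β K := by
  obtain ⟨U, e, h1, h2, rfl⟩ := exists_diag K hK
  rw [partitionFn_eq β U e h1 h2]
  exact Finset.sum_pos (fun i _ => Real.exp_pos _) Finset.univ_nonempty

omit [DecidableEq ι] in
/-- The scalar tangent line inequality for the Bose function. -/
theorem tangent (x X : ℝ) (hX : 0 < X) :
    (Real.exp x - 1) * ((Real.exp X - 1) - Real.exp X * (x - X)) ≤ (Real.exp X - 1) ^ 2 := by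
  set E := Real.exp X with hE
  have hE1 : 1 < E := Real.one_lt_exp_iff.2 hX
  have hx : Real.exp x = E * Real.exp (x - X) := by
    rw [hE, ← Real.exp_add]; congr 1; ring
  rw [hx]
  set t := x - X with ht
  have h := Real.add_one_le_exp t
  rcases le_or_gt 0 (E - 1 - E * t) with hc | hc
  · have ht1 : t < 1 := by nlinarith
    have hle : Real.exp t * (1 - t) ≤ 1 := by
      have := Real.add_one_le_exp (-t)
      rw [Real.exp_neg] at this
      have hp := Real.exp_pos t
      have h' : (1 - t) * Real.exp t ≤ (Real.exp t)⁻¹ * Real.exp t :=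
        mul_le_mul_of_nonneg_right (by linarith) hp.le
      rw [inv_mul_cancel₀ hp.ne'] at h'
      linarith
    have h2 : E * Real.exp t * (1 - t) ≤ E := by nlinarith
    have h3 : (E * Real.exp t - 1) * (1 - t) ≤ E - 1 + t := by nlinarith
    have h4 := mul_le_mul_of_nonneg_right h3 hc
    have h5 : (E * Real.exp t - 1) * (E - 1 - E * t) * (1 - t) ≤ (E - 1) ^ 2 * (1 - t) := by
      nlinarith [mul_self_nonneg t]
    exact le_of_mul_le_mul_right h5 (by linarith)
  · have h3 : E * (t + 1) - 1 ≤ E * Real.exp t - 1 := by nlinarith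
    nlinarith [mul_le_mul_of_nonpos_right h3 hc.le, mul_self_nonneg (E * t)]

/-- Infrared bound: if `D = ⟨[A,Aᵀ]⟩` and `C = ⟨[A,[K,Aᵀ]]⟩`, summed over two operators, then
`⟨AᵀA⟩ ≥ D g(X)` whenever `β C ≤ X D`, with `g(X) = 1/(exp X - 1)`. -/
theorem bose_bound [Nonempty ι] (hK : K.IsSymm) (A B : Matrix ι ι ℝ) (X : ℝ) (hX : 0 < X)
    (hC : β * (gibbs β K (A * (K * Aᵀ - Aᵀ * K) - (K * Aᵀ - Aᵀ * K) * A) +
        gibbs β K (B * (K * Bᵀ - Bᵀ * K) - (K * Bᵀ - Bᵀ * K) * B)) ≤
      X * (gibbs β K (A * Aᵀ - Aᵀ * A) + gibbs β K (B * Bᵀ - Bᵀ * B))) :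
    (gibbs β K (A * Aᵀ - Aᵀ * A) + gibbs β K (B * Bᵀ - Bᵀ * B)) / (Real.exp X - 1) ≤
      gibbs β K (Aᵀ * A) + gibbs β K (Bᵀ * B) := by
  obtain ⟨U, e, h1, h2, hKe⟩ := exists_diag K hK
  set w : ι → ℝ := fun i => Real.exp (-β * e i) with hw
  set Z := ∑ i, w i with hZdef
  have hZ : 0 < Z := Finset.sum_pos (fun i _ => Real.exp_pos _) Finset.univ_nonempty
  have hconj : ∀ P Q : Matrix ι ι ℝ,
      Uᵀ * (P * Q) * U = (Uᵀ * P * U) * (Uᵀ * Q * U) := by
    intro P Q
    calc Uᵀ * (P * Q) * U = Uᵀ * P * (U * Uᵀ) * Q * U := by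
          rw [h2, Matrix.mul_one, ← Matrix.mul_assoc]
      _ = _ := by simp only [Matrix.mul_assoc]
  have hsub : ∀ P Q : Matrix ι ι ℝ, Uᵀ * (P - Q) * U = Uᵀ * P * U - Uᵀ * Q * U := by
    intro P Q; rw [Matrix.mul_sub, Matrix.sub_mul]
  have hT : ∀ P : Matrix ι ι ℝ, Uᵀ * Pᵀ * U = (Uᵀ * P * U)ᵀ := by
    intro P; rw [transpose_mul, transpose_mul, transpose_transpose, Matrix.mul_assoc]
  have hdiag : Uᵀ * K * U = diagonal e := by
    rw [hKe]
    simp only [Matrix.mul_assoc]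
    rw [h1, Matrix.mul_one, ← Matrix.mul_assoc, h1, Matrix.one_mul]
  have key : ∀ P a : Matrix ι ι ℝ, a = Uᵀ * P * U →
      gibbs β K (Pᵀ * P) = (∑ i, ∑ j, w j * a i j ^ 2) / Z ∧
      gibbs β K (P * Pᵀ - Pᵀ * P) = (∑ i, ∑ j, (w i - w j) * a i j ^ 2) / Z ∧
      gibbs β K (P * (K * Pᵀ - Pᵀ * K) - (K * Pᵀ - Pᵀ * K) * P) =
        (∑ i, ∑ j, (w i - w j) * (e j - e i) * a i j ^ 2) / Z := by
    intro P a ha
    have hg : ∀ Y, gibbs β K Y = (∑ i, w i * (Uᵀ * Y * U) i i) / Z := fun Y => by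
      rw [hKe, gibbs_eq β U e h1 h2 Y]
    -- the rotated commutator
    obtain ⟨c, hc⟩ : ∃ c, c = Uᵀ * (K * Pᵀ - Pᵀ * K) * U := ⟨_, rfl⟩
    have hcij : ∀ i j, c j i = (e j - e i) * a i j := by
      intro i j
      rw [hc, hsub, hconj, hconj, hdiag, hT, ← ha, Matrix.sub_apply, diagonal_mul, mul_diagonal,
        transpose_apply]
      ring
    refine ⟨?_, ?_, ?_⟩
    · rw [hg, hconj, hT, ← ha, Finset.sum_comm (γ := ι)]
      congr 1
      refine Finset.sum_congr rfl fun j _ => ?_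
      rw [Matrix.mul_apply, Finset.mul_sum]
      exact Finset.sum_congr rfl fun i _ => by rw [transpose_apply]; ring
    · rw [hg, hsub, hconj, hconj, hT, ← ha]
      congr 1
      simp only [Matrix.sub_apply, Matrix.mul_apply, transpose_apply, mul_sub,
        Finset.sum_sub_distrib, Finset.mul_sum, sub_mul]
      congr 1
      · exact Finset.sum_congr rfl fun i _ => Finset.sum_congr rfl fun j _ => by ring
      · rw [Finset.sum_comm]
        exact Finset.sum_congr rfl fun i _ => Finset.sum_congr rfl fun j _ => by ring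
    · rw [hg, hsub, hconj, hconj, ← hc, ← ha]
      congr 1
      simp only [Matrix.sub_apply, Matrix.mul_apply, mul_sub, Finset.sum_sub_distrib,
        Finset.mul_sum]
      rw [Finset.sum_comm (f := fun i j => w i * (c i j * a j i))]
      simp only [← Finset.sum_sub_distrib]
      refine Finset.sum_congr rfl fun i _ => Finset.sum_congr rfl fun j _ => ?_
      rw [hcij]
      ring
  obtain ⟨hA1, hA2, hA3⟩ := key A _ rfl
  obtain ⟨hB1, hB2, hB3⟩ := key B _ rfl
  set a := Uᵀ * A * U with ha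
  set b := Uᵀ * B * U with hb
  rw [hA3, hB3, hA2, hB2] at hC
  rw [hA1, hB1, hA2, hB2]
  set E := Real.exp X - 1 with hE
  have hE0 : 0 < E := sub_pos.2 (Real.one_lt_exp_iff.2 hX)
  have hpt : ∀ i j, (w i - w j) * (E - (E + 1) * (β * (e j - e i) - X)) ≤ E ^ 2 * w j := by
    intro i j
    have ht := tangent (β * (e j - e i)) X hX
    have hwij : w i = Real.exp (β * (e j - e i)) * w j := by
      simp only [hw, ← Real.exp_add]; congr 1; ring
    rw [hwij, hE, show Real.exp X - 1 + 1 = Real.exp X by ring]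
    have := mul_le_mul_of_nonneg_right ht (Real.exp_pos (-β * e j)).le
    simp only [hw]
    nlinarith
  have hsum : ∀ m : Matrix ι ι ℝ,
      (E + (E + 1) * X) * (∑ i, ∑ j, (w i - w j) * m i j ^ 2) -
        (E + 1) * β * (∑ i, ∑ j, (w i - w j) * (e j - e i) * m i j ^ 2) ≤
      E ^ 2 * ∑ i, ∑ j, w j * m i j ^ 2 := by
    intro m
    simp only [Finset.mul_sum, ← Finset.sum_sub_distrib]
    refine Finset.sum_le_sum fun i _ => Finset.sum_le_sum fun j _ => ?_
    nlinarith [mul_le_mul_of_nonneg_right (hpt i j) (sq_nonneg (m i j))]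
  have hAs := hsum a
  have hBs := hsum b
  rw [← add_div, ← add_div, div_div, div_le_div_iff₀ (by positivity) hZ]
  rw [← add_div, ← add_div] at hC
  have hC' := mul_le_mul_of_nonneg_right hC hZ.le
  rw [mul_assoc, mul_assoc, div_mul_cancel₀ _ hZ.ne', div_mul_cancel₀ _ hZ.ne'] at hC'
  have hE1 : (0 : ℝ) ≤ E + 1 := by linarith
  have hfin : E * (∑ i, ∑ j, (w i - w j) * a i j ^ 2 + ∑ i, ∑ j, (w i - w j) * b i j ^ 2) ≤
      E * (E * (∑ i, ∑ j, w j * a i j ^ 2 + ∑ i, ∑ j, w j * b i j ^ 2)) := by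
    nlinarith [mul_le_mul_of_nonneg_left hC' hE1]
  have h := le_of_mul_le_mul_left hfin hE0
  nlinarith [mul_le_mul_of_nonneg_right h hZ.le]

theorem gibbs_add (X Y : Matrix ι ι ℝ) : gibbs β K (X + Y) = gibbs β K X + gibbs β K Y := by
  simp only [gibbs, Matrix.mul_add, trace_add, add_div]

theorem gibbs_sub (X Y : Matrix ι ι ℝ) : gibbs β K (X - Y) = gibbs β K X - gibbs β K Y := by
  simp only [gibbs, Matrix.mul_sub, trace_sub, sub_div]

theorem gibbs_neg (X : Matrix ι ι ℝ) : gibbs β K (-X) = -gibbs β K X := by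
  simp only [gibbs, Matrix.mul_neg, trace_neg, neg_div]

theorem gibbs_smul (c : ℝ) (X : Matrix ι ι ℝ) : gibbs β K (c • X) = c * gibbs β K X := by
  simp only [gibbs, Matrix.mul_smul, trace_smul, smul_eq_mul, mul_div_assoc]

theorem gibbs_sum {κ : Type*} (t : Finset κ) (X : κ → Matrix ι ι ℝ) :
    gibbs β K (∑ k ∈ t, X k) = ∑ k ∈ t, gibbs β K (X k) := by
  simp only [gibbs, Matrix.mul_sum, trace_sum, Finset.sum_div]

theorem gibbs_one [Nonempty ι] (hK : K.IsSymm) : gibbs β K 1 = 1 := by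
  rw [gibbs, Matrix.mul_one]
  exact div_self (partitionFn_pos β hK).ne'

theorem gibbs_transpose (hK : K.IsSymm) (X : Matrix ι ι ℝ) :
    gibbs β K Xᵀ = gibbs β K X := by
  obtain ⟨U, e, h1, h2, rfl⟩ := exists_diag K hK
  simp only [gibbs_eq β U e h1 h2]
  congr 1
  refine Finset.sum_congr rfl fun i _ => ?_
  rw [show Uᵀ * Xᵀ * U = (Uᵀ * X * U)ᵀ by
    rw [transpose_mul, transpose_mul, transpose_transpose, Matrix.mul_assoc], transpose_apply]

omit [DecidableEq ι] in
theorem conj_apply_eq (U X : Matrix ι ι ℝ) (i : ι) :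
    (Uᵀ * X * U) i i = (fun a => U a i) ⬝ᵥ (X *ᵥ (fun a => U a i)) := by
  simp only [Matrix.mul_apply, transpose_apply, dotProduct, mulVec, Finset.mul_sum,
    Finset.sum_mul, mul_assoc]
  exact Finset.sum_comm

theorem col_norm (U : Matrix ι ι ℝ) (h1 : Uᵀ * U = 1) (i : ι) :
    (fun a => U a i) ⬝ᵥ (fun a => U a i) = 1 := by
  have := congrFun (congrFun h1 i) i
  simpa [Matrix.mul_apply, dotProduct] using this

theorem gibbs_le [Nonempty ι] (hK : K.IsSymm) (X : Matrix ι ι ℝ) (L : ℝ)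
    (hX : ∀ v : ι → ℝ, v ⬝ᵥ (X *ᵥ v) ≤ L * (v ⬝ᵥ v)) : gibbs β K X ≤ L := by
  obtain ⟨U, e, h1, h2, rfl⟩ := exists_diag K hK
  rw [gibbs_eq β U e h1 h2,
    div_le_iff₀ (Finset.sum_pos (fun i _ => Real.exp_pos _) Finset.univ_nonempty), Finset.mul_sum]
  refine Finset.sum_le_sum fun i _ => ?_
  rw [conj_apply_eq, mul_comm L]
  refine mul_le_mul_of_nonneg_left ?_ (Real.exp_pos _).le
  have := hX (fun a => U a i)
  rwa [col_norm U h1, mul_one] at this

theorem le_gibbs_of_diag [Nonempty ι] (hK : K.IsSymm) (f g : ι → ℝ) (hfg : ∀ i, f i ≤ g i) :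
    gibbs β K (diagonal f) ≤ gibbs β K (diagonal g) := by
  have h := gibbs_le β hK (diagonal f - diagonal g) 0 (fun v => by
    rw [zero_mul, Matrix.sub_mulVec, dotProduct_sub, sub_nonpos]
    simp only [dotProduct, mulVec_diagonal]
    refine Finset.sum_le_sum fun i _ => ?_
    nlinarith [mul_le_mul_of_nonneg_right (hfg i) (mul_self_nonneg (v i))])
  rw [gibbs_sub] at h
  linarith

/-- Jensen's inequality in an orthonormal basis. -/
theorem exp_quad_le (K' : Matrix ι ι ℝ) (hK' : K'.IsSymm) (U : Matrix ι ι ℝ)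
    (h1 : Uᵀ * U = 1) (h2 : U * Uᵀ = 1) :
    ∑ i, Real.exp (-β * (Uᵀ * K' * U) i i) ≤ partitionFn β K' := by
  obtain ⟨V, e, g1, g2, rfl⟩ := exists_diag K' hK'
  set W := Vᵀ * U with hW
  have hWW : Wᵀ * W = 1 := by
    rw [hW, transpose_mul, transpose_transpose, Matrix.mul_assoc, ← Matrix.mul_assoc V, g2,
      Matrix.one_mul, h1]
  have hWW' : W * Wᵀ = 1 := by
    rw [hW, transpose_mul, transpose_transpose, Matrix.mul_assoc, ← Matrix.mul_assoc U, h2,
      Matrix.one_mul, g1]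
  have hrot : Uᵀ * (V * diagonal e * Vᵀ) * U = Wᵀ * diagonal e * W := by
    rw [hW, transpose_mul, transpose_transpose]; simp only [Matrix.mul_assoc]
  rw [hrot, partitionFn_eq β V e g1 g2]
  have hcol : ∀ i, ∑ l, W l i ^ 2 = 1 := fun i => by
    have := col_norm W hWW i
    simpa [dotProduct, sq] using this
  have hrow : ∀ l, ∑ i, W l i ^ 2 = 1 := fun l => by
    have := col_norm Wᵀ (by rw [transpose_transpose]; exact hWW') l
    simpa [dotProduct, sq] using this
  calc ∑ i, Real.exp (-β * (Wᵀ * diagonal e * W) i i)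
      ≤ ∑ i, ∑ l, W l i ^ 2 * Real.exp (-β * e l) := by
        refine Finset.sum_le_sum fun i _ => ?_
        have hj := convexOn_exp.map_sum_le (t := Finset.univ) (w := fun l => W l i ^ 2)
          (p := fun l => -β * e l) (fun l _ => sq_nonneg _) (hcol i) (fun l _ => Set.mem_univ _)
        simp only [smul_eq_mul] at hj
        refine le_trans (le_of_eq ?_) hj
        congr 1
        rw [Matrix.mul_apply, Finset.mul_sum]
        refine Finset.sum_congr rfl fun l _ => ?_
        rw [mul_diagonal, transpose_apply]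
        ring
    _ = ∑ l, Real.exp (-β * e l) := by
        rw [Finset.sum_comm]
        refine Finset.sum_congr rfl fun l _ => ?_
        rw [← Finset.sum_mul, hrow, one_mul]

/-- Peierls–Bogoliubov inequality. -/
theorem log_partitionFn_ge [Nonempty ι] (hK : K.IsSymm) (K' : Matrix ι ι ℝ) (hK' : K'.IsSymm) :
    Real.log (partitionFn β K) - β * gibbs β K (K' - K) ≤ Real.log (partitionFn β K') := by
  obtain ⟨U, e, h1, h2, hKe⟩ := exists_diag K hK
  have h := exp_quad_le β K' hK' U h1 h2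
  have hdiag : Uᵀ * K * U = diagonal e := by
    rw [hKe]
    simp only [Matrix.mul_assoc]
    rw [h1, Matrix.mul_one, ← Matrix.mul_assoc, h1, Matrix.one_mul]
  set Z := ∑ i, Real.exp (-β * e i) with hZ
  have hZ0 : 0 < Z := Finset.sum_pos (fun i _ => Real.exp_pos _) Finset.univ_nonempty
  set d := fun i => (Uᵀ * (K' - K) * U) i i with hd
  have hd' : ∀ i, (Uᵀ * K' * U) i i = e i + d i := fun i => by
    simp only [hd, Matrix.mul_sub, Matrix.sub_mul, hdiag, Matrix.sub_apply, diagonal_apply_eq]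
    ring
  have hZK : partitionFn β K = Z := by rw [hKe]; exact partitionFn_eq β U e h1 h2
  have hg : gibbs β K (K' - K) = (∑ i, Real.exp (-β * e i) * d i) / Z := by
    conv_lhs => rw [hKe]
    rw [gibbs_eq β U e h1 h2, ← hKe]
  have hj := convexOn_exp.map_sum_le (t := Finset.univ) (w := fun i => Real.exp (-β * e i) / Z)
    (p := fun i => -β * d i) (fun i _ => (div_pos (Real.exp_pos _) hZ0).le)
    (by rw [← Finset.sum_div, div_self hZ0.ne']) (fun i _ => Set.mem_univ _)
  simp only [smul_eq_mul] at hj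
  have h3 : Z * Real.exp (-β * gibbs β K (K' - K)) ≤ partitionFn β K' := by
    refine le_trans ?_ h
    refine le_trans (mul_le_mul_of_nonneg_left (le_trans (le_of_eq ?_) hj) hZ0.le) (le_of_eq ?_)
    · rw [hg, Finset.sum_div, Finset.mul_sum]
      congr 1
      exact Finset.sum_congr rfl fun i _ => by ring
    · rw [Finset.mul_sum]
      refine Finset.sum_congr rfl fun i _ => ?_
      rw [hd', ← mul_assoc, mul_div_cancel₀ _ hZ0.ne', ← Real.exp_add]
      congr 1; ring
  have h4 := Real.log_le_log (by positivity) h3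
  rw [Real.log_mul hZ0.ne' (Real.exp_ne_zero _), Real.log_exp, ← hZK] at h4
  linarith

theorem log_partitionFn_le [Nonempty ι] (hβ : 0 ≤ β) (hK : K.IsSymm) (L : ℝ)
    (hX : ∀ v : ι → ℝ, v ⬝ᵥ ((-K) *ᵥ v) ≤ L * (v ⬝ᵥ v)) :
    Real.log (partitionFn β K) ≤ Real.log (Fintype.card ι) + β * L := by
  obtain ⟨U, e, h1, h2, hKe⟩ := exists_diag K hK
  have hdiag : Uᵀ * K * U = diagonal e := by
    rw [hKe]
    simp only [Matrix.mul_assoc]
    rw [h1, Matrix.mul_one, ← Matrix.mul_assoc, h1, Matrix.one_mul]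
  have he : ∀ i, -e i ≤ L := fun i => by
    have := hX (fun a => U a i)
    rw [col_norm U h1, mul_one, ← conj_apply_eq, Matrix.mul_neg, Matrix.neg_mul, hdiag] at this
    simpa using this
  have hZK : partitionFn β K = ∑ i, Real.exp (-β * e i) := by
    rw [hKe]; exact partitionFn_eq β U e h1 h2
  have hc : (0 : ℝ) < Fintype.card ι := by exact_mod_cast Fintype.card_pos
  have h : partitionFn β K ≤ (Fintype.card ι : ℝ) * Real.exp (β * L) := by
    rw [hZK]
    refine le_trans (Finset.sum_le_card_nsmul _ _ (Real.exp (β * L)) fun i _ => ?_) (by simp)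
    refine Real.exp_le_exp.2 ?_
    nlinarith [he i]
  have h4 := Real.log_le_log (partitionFn_pos β hK) h
  rwa [Real.log_mul hc.ne' (Real.exp_ne_zero _), Real.log_exp] at h4

theorem log_partitionFn_ge_entry [Nonempty ι] (hK : K.IsSymm) (i : ι) :
    -β * K i i ≤ Real.log (partitionFn β K) := by
  have h := exp_quad_le β K hK 1 (by simp) (by simp)
  rw [transpose_one, Matrix.one_mul, Matrix.mul_one] at h
  have h' : Real.exp (-β * K i i) ≤ partitionFn β K :=
    le_trans (Finset.single_le_sum (f := fun j => Real.exp (-β * K j j))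
      (fun j _ => (Real.exp_pos _).le) (Finset.mem_univ i)) h
  have := Real.log_le_log (Real.exp_pos _) h'
  rwa [Real.log_exp] at this

end Vale.Agent.P361
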