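import Vale.Agent.P361.Finite

namespace Vale.Agent.P361

open Matrix Finset MeasureTheory Real Filter
open scoped Topology

variable {s : ℕ} {β : ℝ}

theorem pressureN_eq (N : ℕ) (h : ℝ) :
    pressureN s β N h =
      Real.log (partitionFn β (energy s N h)) / (β * (Fintype.card (Site N) : ℝ)) := by
  rw [card_site]
  rfl

theorem pressureN_subgrad (hβ : 0 < β) (N : ℕ) (h h' : ℝ) :
    pressureN s β N h + (h' - h) * magDensity s β N h ≤ pressureN s β N h' := by
  have hn : (0 : ℝ) < (Fintype.card (Site N) : ℝ) := by exact_mod_cast Fintype.card_pos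
  have h1 := log_partitionFn_ge β (energy_isSymm (s := s) (N := N) h) (energy s N h')
    (energy_isSymm h')
  have hd : energy s N h' - energy s N h = (-(h' - h)) • mag s N := by
    simp only [energy]; module
  rw [hd, gibbs_smul, gibbs_mag] at h1
  rw [pressureN_eq, pressureN_eq, le_div_iff₀ (mul_pos hβ hn), add_mul,
    div_mul_cancel₀ _ (mul_pos hβ hn).ne']
  linarith

theorem pressureN_convex (hβ : 0 < β) (N : ℕ) : ConvexOn ℝ Set.univ (pressureN s β N) := by
  refine ⟨convex_univ, fun x _ y _ a b ha hb hab => ?_⟩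
  have h1 := mul_le_mul_of_nonneg_left (pressureN_subgrad (s := s) hβ N (a • x + b • y) x) ha
  have h2 := mul_le_mul_of_nonneg_left (pressureN_subgrad (s := s) hβ N (a • x + b • y) y) hb
  simp only [smul_eq_mul] at h1 h2 ⊢
  have he : b = 1 - a := by linarith
  subst he
  nlinarith

theorem pressureN_le (hβ : 0 < β) (N : ℕ) (h : ℝ) :
    pressureN s β N h ≤
      Real.log (s + 1) / β + (3 * ((s : ℝ) / 2) ^ 2 + |h| * ((s : ℝ) / 2)) := by
  set n := (Fintype.card (Site N) : ℝ) with hn_def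
  have hn : 0 < n := by rw [hn_def]; exact_mod_cast Fintype.card_pos
  have hX : ∀ v : Cfg s (Site N) → ℝ, v ⬝ᵥ ((-energy s N h) *ᵥ v) ≤
      (n * (3 * ((s : ℝ) / 2) ^ 2 + |h| * ((s : ℝ) / 2))) * (v ⬝ᵥ v) := by
    intro v
    have hvv : 0 ≤ v ⬝ᵥ v := Finset.sum_nonneg fun i _ => mul_self_nonneg _
    have h1 : v ⬝ᵥ ((∑ x : Site N, ∑ y ∈ nbrs x, heis s x y) *ᵥ v) ≤
        n * (6 * (((s : ℝ) / 2) ^ 2 * (v ⬝ᵥ v))) := by
      simp only [Matrix.sum_mulVec, dotProduct_sum]
      refine le_trans (Finset.sum_le_sum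
        (g := fun _ => 6 * (((s : ℝ) / 2) ^ 2 * (v ⬝ᵥ v))) fun x _ => ?_) (le_of_eq ?_)
      · refine le_trans (Finset.sum_le_card_nsmul _ _ (((s : ℝ) / 2) ^ 2 * (v ⬝ᵥ v))
          fun y hy => ?_) ?_
        · rw [heis_quad (mem_nbrs_ne hy)]
          exact exchange_quad (mem_nbrs_ne hy) v
        · rw [nsmul_eq_mul]
          exact mul_le_mul_of_nonneg_right (by exact_mod_cast card_nbrs_le x) (by positivity)
      · simp [hn_def]
    have h2 : h * (v ⬝ᵥ (mag s N *ᵥ v)) ≤ n * (|h| * ((s : ℝ) / 2) * (v ⬝ᵥ v)) := by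
      simp only [mag, Matrix.sum_mulVec, dotProduct_sum, Finset.mul_sum]
      refine le_trans (Finset.sum_le_sum
        (g := fun _ => |h| * ((s : ℝ) / 2) * (v ⬝ᵥ v)) fun x _ => ?_) (le_of_eq ?_)
      · simp only [szM, dotProduct, mulVec_diagonal, Finset.mul_sum]
        refine Finset.sum_le_sum fun σ _ => ?_
        have hab : |(s : ℝ) / 2 - (σ x : ℕ)| ≤ (s : ℝ) / 2 := by
          rw [abs_le]
          constructor <;>
            linarith [cast_val_le σ x, (Nat.cast_nonneg (α := ℝ) (σ x : ℕ))]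
        have hh : h * ((s : ℝ) / 2 - (σ x : ℕ)) ≤ |h| * ((s : ℝ) / 2) :=
          le_trans (le_abs_self _) (by
            rw [abs_mul]; exact mul_le_mul_of_nonneg_left hab (abs_nonneg _))
        nlinarith [mul_le_mul_of_nonneg_right hh (mul_self_nonneg (v σ))]
      · simp [hn_def]
    simp only [energy, ham, neg_sub, sub_neg_eq_add, Matrix.add_mulVec, Matrix.smul_mulVec,
      dotProduct_add, dotProduct_smul, smul_eq_mul]
    linarith
  have h := log_partitionFn_le β hβ.le (energy_isSymm (s := s) (N := N) h) _ hX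
  have hcard : Real.log (Fintype.card (Cfg s (Site N)) : ℝ) = n * Real.log (s + 1) := by
    rw [Fintype.card_fun, Nat.cast_pow, Real.log_pow, hn_def, Fintype.card_fin]
    push_cast
    rfl
  rw [hcard] at h
  rw [pressureN_eq, ← hn_def, div_le_iff₀ (mul_pos hβ hn)]
  refine le_trans h (le_of_eq ?_)
  field_simp

theorem le_pressureN (hβ : 0 < β) (N : ℕ) (h : ℝ) :
    -(|h| * ((s : ℝ) / 2)) ≤ pressureN s β N h := by
  set n := (Fintype.card (Site N) : ℝ) with hn_def
  have hn : 0 < n := by rw [hn_def]; exact_mod_cast Fintype.card_pos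
  have hent : energy s N h 0 0 ≤ n * (|h| * ((s : ℝ) / 2)) := by
    have he : ∀ x : Site N, (∑ y ∈ nbrs x, heis s x y 0 0) = (nbrs x).card * ((s : ℝ) / 2) ^ 2 := by
      intro x
      rw [Finset.sum_congr rfl fun y hy => heis_diag_zero (mem_nbrs_ne hy), Finset.sum_const,
        nsmul_eq_mul]
    simp only [energy, ham, mag, Matrix.sub_apply, Matrix.neg_apply, Matrix.smul_apply,
      Matrix.sum_apply, he, szM, diagonal_apply_eq, smul_eq_mul]
    simp only [Pi.zero_apply, Fin.val_zero, Nat.cast_zero, sub_zero, Finset.sum_const,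
      nsmul_eq_mul, Finset.card_univ, ← hn_def]
    have h1 : 0 ≤ ∑ x : Site N, ((nbrs x).card : ℝ) * ((s : ℝ) / 2) ^ 2 :=
      Finset.sum_nonneg fun _ _ => by positivity
    have h2 := mul_le_mul_of_nonneg_left (neg_abs_le h) (show 0 ≤ n * ((s : ℝ) / 2) by positivity)
    linarith
  have h1 := log_partitionFn_ge_entry β (energy_isSymm (s := s) (N := N) h) 0
  rw [pressureN_eq, ← hn_def, le_div_iff₀ (mul_pos hβ hn)]
  nlinarith [mul_le_mul_of_nonneg_left hent hβ.le]

theorem bdd_above (hβ : 0 < β) (h : ℝ) :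
    IsBoundedUnder (· ≤ ·) atTop (fun N => pressureN s β N h) :=
  Filter.isBoundedUnder_of ⟨_, fun N => pressureN_le hβ N h⟩

theorem cobdd (hβ : 0 < β) (h : ℝ) :
    IsCoboundedUnder (· ≤ ·) atTop (fun N => pressureN s β N h) :=
  (Filter.isBoundedUnder_of (r := (· ≥ ·))
    ⟨_, fun N => le_pressureN hβ N h⟩).isCoboundedUnder_le

theorem pressure_convex (hβ : 0 < β) : ConvexOn ℝ Set.univ (pressure s β) := by
  refine ⟨convex_univ, fun x _ y _ a b ha hb hab => le_of_forall_pos_le_add fun ε hε => ?_⟩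
  have hx := eventually_lt_of_limsup_lt
    (b := pressure s β x + ε) (by simp only [pressure]; linarith) (bdd_above (s := s) hβ x)
  have hy := eventually_lt_of_limsup_lt
    (b := pressure s β y + ε) (by simp only [pressure]; linarith) (bdd_above (s := s) hβ y)
  refine Filter.limsup_le_of_le (cobdd hβ _) ?_
  filter_upwards [hx, hy] with N hNx hNy
  refine ((pressureN_convex hβ N).2 trivial trivial ha hb hab).trans ?_
  simp only [smul_eq_mul]
  have := mul_le_mul_of_nonneg_left hNx.le ha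
  have := mul_le_mul_of_nonneg_left hNy.le hb
  nlinarith

theorem hasDeriv_spontMag (hβ : 0 < β) :
    HasDerivWithinAt (pressure s β) (spontMag s β) (Set.Ioi 0) 0 :=
  (pressure_convex hβ).hasDerivWithinAt_rightDeriv_of_mem_interior (by simp)

theorem exists_magDensity_gt (hβ : 0 < β) {h μ : ℝ} (hh : 0 < h) (hμ : μ < spontMag s β) :
    ∃ N, μ < magDensity s β N h := by
  have hsl := (pressure_convex (s := s) hβ).rightDeriv_le_slope_of_mem_interior
    (x := 0) (y := h) (by simp) trivial hh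
  rw [slope_def_field, sub_zero, le_div_iff₀ hh] at hsl
  have hgap : μ * h < pressure s β h - pressure s β 0 :=
    lt_of_lt_of_le (mul_lt_mul_of_pos_right hμ hh) hsl
  set ε := (pressure s β h - pressure s β 0 - μ * h) / 2 with hε
  have hε0 : 0 < ε := by linarith
  have h1 := frequently_lt_of_lt_limsup (cobdd (s := s) hβ h)
    (b := pressure s β h - ε) (by simp only [pressure]; linarith)
  have h2 := eventually_lt_of_limsup_lt
    (b := pressure s β 0 + ε) (by simp only [pressure]; linarith) (bdd_above (s := s) hβ 0)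
  obtain ⟨N, hN1, hN2⟩ := (h1.and_eventually h2).exists
  refine ⟨N, ?_⟩
  have h3 := pressureN_subgrad (s := s) hβ N h 0
  by_contra hle
  push Not at hle
  have := mul_le_mul_of_nonneg_left hle hh.le
  linarith

theorem infinite_volume_bound (hs : 1 ≤ s) (hβ : 0 < β) {μ : ℝ} (hμ0 : 0 < μ)
    (hμ : μ < spontMag s β) (K : ℕ) :
    μ * ∑ j ∈ Finset.range K, gauss (((j : ℝ) + 1) * β * ((s : ℝ) / 2) ^ 2 / μ) ^ 3 ≤
      (2 * π) ^ 3 * ((s : ℝ) / 2) * ((s : ℝ) / 2 - μ) := by
  set F : ℝ → ℝ := fun h => μ * ∑ j ∈ Finset.range K, Real.exp (-((j : ℝ) + 1) * β * h) *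
    gauss (((j : ℝ) + 1) * β * ((s : ℝ) / 2) ^ 2 / μ) ^ 3 with hF
  have hlim : Tendsto F (𝓝[>] 0) (𝓝 (F 0)) :=
    ((by rw [hF]; fun_prop : Continuous F).tendsto 0).mono_left nhdsWithin_le_nhds
  have hF0 : F 0 = μ * ∑ j ∈ Finset.range K,
      gauss (((j : ℝ) + 1) * β * ((s : ℝ) / 2) ^ 2 / μ) ^ 3 := by simp [hF]
  rw [← hF0]
  refine le_of_tendsto hlim ?_
  filter_upwards [self_mem_nhdsWithin] with h hh
  have hh' : (0 : ℝ) < h := hh
  obtain ⟨N, hN⟩ := exists_magDensity_gt (s := s) hβ hh' hμ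
  refine le_trans ?_ ((finite_volume_bound hs hβ hh' (hμ0.trans hN) K).trans
    (mul_le_mul_of_nonneg_left (by linarith) (by positivity)))
  refine mul_le_mul hN.le (Finset.sum_le_sum fun j _ => ?_)
    (Finset.sum_nonneg fun j _ => mul_nonneg (Real.exp_pos _).le (pow_nonneg (gauss_nonneg _) 3))
    (hμ0.trans hN).le
  refine mul_le_mul_of_nonneg_left (pow_le_pow_left₀ (gauss_nonneg _) (gauss_antitone ?_) 3)
    (Real.exp_pos _).le
  exact div_le_div_of_nonneg_left (by positivity) hμ0 hN.le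

theorem gauss_scaled (c : ℝ) (hc : 0 < c) :
    Tendsto (fun β : ℝ => Real.sqrt β * gauss (c * β)) atTop (𝓝 (Real.sqrt (π / c))) := by
  have hb : Tendsto (fun β : ℝ => Real.sqrt β * π) atTop atTop :=
    Real.tendsto_sqrt_atTop.atTop_mul_const pi_pos
  have h := intervalIntegral_tendsto_integral (μ := volume) (integrable_exp_neg_mul_sq hc)
    (tendsto_neg_atTop_atBot.comp hb) hb
  rw [integral_gaussian] at h
  refine h.congr' ?_
  filter_upwards [eventually_gt_atTop 0] with β hβ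
  have hsq : 0 < Real.sqrt β := Real.sqrt_pos.2 hβ
  have he : ∀ t : ℝ, -(c * β) * t ^ 2 = -c * (Real.sqrt β * t) ^ 2 := fun t => by
    rw [mul_pow, Real.sq_sqrt hβ.le]; ring
  simp only [gauss, he, Function.comp]
  rw [intervalIntegral.integral_comp_mul_left (fun t => Real.exp (-c * t ^ 2)) hsq.ne',
    smul_eq_mul, ← mul_assoc, mul_inv_cancel₀ hsq.ne', one_mul, mul_neg]

theorem rpow_three_halves {x : ℝ} (hx : 0 ≤ x) : x ^ (3 / 2 : ℝ) = Real.sqrt x ^ 3 := by
  rw [Real.sqrt_eq_rpow, ← Real.rpow_natCast (x ^ (1 / 2 : ℝ)) 3, ← Real.rpow_mul hx]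
  norm_num

theorem zeta_re : (riemannZeta (3 / 2 : ℂ)).re = ∑' j : ℕ, 1 / ((j : ℝ) + 1) ^ (3 / 2 : ℝ) := by
  have hsum : Summable fun j : ℕ => 1 / ((j : ℝ) + 1) ^ (3 / 2 : ℝ) := by
    have := (summable_nat_add_iff 1).2
      (Real.summable_one_div_nat_rpow.2 (show (1 : ℝ) < 3 / 2 by norm_num))
    simpa using this
  rw [zeta_eq_tsum_one_div_nat_add_one_cpow (by norm_num)]
  have he : ∀ j : ℕ, (1 : ℂ) / ((j : ℂ) + 1) ^ (3 / 2 : ℂ) =
      ((1 / ((j : ℝ) + 1) ^ (3 / 2 : ℝ) : ℝ) : ℂ) := by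
    intro j
    rw [Complex.ofReal_div, Complex.ofReal_one, Complex.ofReal_cpow (by positivity)]
    push_cast
    rfl
  simp only [he, ← Complex.ofReal_tsum, Complex.ofReal_re]

theorem bloch_lower (hs : 1 ≤ s) (δ : ℝ) (hδ : 0 < δ) :
    ∀ᶠ β in atTop,
      (riemannZeta (3 / 2 : ℂ)).re / (8 * π ^ (3 / 2 : ℝ) * ((s : ℝ) / 2) ^ (3 / 2 : ℝ)) - δ <
        β ^ (3 / 2 : ℝ) * ((s : ℝ) / 2 - spontMag s β) := by
  set S := (s : ℝ) / 2 with hSdef
  have hS : 0 < S := by rw [hSdef]; positivity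
  set c := (riemannZeta (3 / 2 : ℂ)).re / (8 * π ^ (3 / 2 : ℝ) * S ^ (3 / 2 : ℝ)) with hc
  set T : ℕ → ℝ → ℝ := fun K η => (1 - η) / (2 * π) ^ 3 * ∑ j ∈ Finset.range K,
    Real.sqrt (π / (((j : ℝ) + 1) * S / (1 - η))) ^ 3 with hT
  have hT0 : ∀ K, T K 0 = (∑ j ∈ Finset.range K, 1 / ((j : ℝ) + 1) ^ (3 / 2 : ℝ)) /
      (8 * π ^ (3 / 2 : ℝ) * S ^ (3 / 2 : ℝ)) := by
    intro K
    simp only [hT, sub_zero, div_one, Finset.mul_sum, Finset.sum_div]
    refine Finset.sum_congr rfl fun j _ => ?_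
    have hj : (0 : ℝ) < (j : ℝ) + 1 := by positivity
    rw [rpow_three_halves pi_pos.le, rpow_three_halves hS.le, rpow_three_halves hj.le,
      Real.sqrt_div pi_pos.le, Real.sqrt_mul hj.le, div_pow, mul_pow]
    have h1 : Real.sqrt π ≠ 0 := (Real.sqrt_pos.2 pi_pos).ne'
    have h2 : Real.sqrt S ≠ 0 := (Real.sqrt_pos.2 hS).ne'
    have h3 : Real.sqrt ((j : ℝ) + 1) ≠ 0 := (Real.sqrt_pos.2 hj).ne'
    have h4 : π ^ 3 = Real.sqrt π ^ 6 := by
      rw [show (6 : ℕ) = 2 * 3 from rfl, pow_mul, Real.sq_sqrt pi_pos.le]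
    rw [h4]
    field_simp
    norm_num
  have hsum : Summable fun j : ℕ => 1 / ((j : ℝ) + 1) ^ (3 / 2 : ℝ) := by
    have := (summable_nat_add_iff 1).2
      (Real.summable_one_div_nat_rpow.2 (show (1 : ℝ) < 3 / 2 by norm_num))
    simpa using this
  have hlimK : Tendsto (fun K => T K 0) atTop (𝓝 c) := by
    simp only [hT0, hc, zeta_re]
    exact hsum.hasSum.tendsto_sum_nat.div_const _
  obtain ⟨K, hK⟩ := (hlimK.eventually (lt_mem_nhds (show c - δ / 3 < c by linarith))).exists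
  have hcont : ContinuousAt (T K) 0 := by
    simp only [hT]
    refine ContinuousAt.mul (by fun_prop) (tendsto_finsetSum _ fun j _ => ?_)
    refine ((Real.continuous_sqrt.continuousAt.comp
      (ContinuousAt.div continuousAt_const (ContinuousAt.div continuousAt_const (by fun_prop) ?_)
        ?_)).pow 3)
    · norm_num
    · norm_num
      exact ⟨by positivity, hS.ne'⟩
  have hev : ∀ᶠ η in 𝓝[>] (0 : ℝ), c - 2 * δ / 3 < T K η ∧ η < 1 :=
    ((hcont.eventually (lt_mem_nhds (show c - 2 * δ / 3 < T K 0 by linarith))).and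
      (gt_mem_nhds one_pos)).filter_mono nhdsWithin_le_nhds
  obtain ⟨η, ⟨hTη, hη1⟩, hη0⟩ := (hev.and self_mem_nhdsWithin).exists
  have hη0' : (0 : ℝ) < η := hη0
  have hη : 0 < 1 - η := by linarith
  have hG : Tendsto (fun β : ℝ => (1 - η) / (2 * π) ^ 3 * ∑ j ∈ Finset.range K,
      (Real.sqrt β * gauss (((j : ℝ) + 1) * S / (1 - η) * β)) ^ 3) atTop (𝓝 (T K η)) :=
    tendsto_const_nhds.mul (tendsto_finsetSum _ fun j _ =>
      (gauss_scaled _ (by positivity)).pow 3)
  filter_upwards [hG.eventually (lt_mem_nhds (show c - δ < T K η by linarith)),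
    (tendsto_rpow_atTop (show (0 : ℝ) < 3 / 2 by norm_num)).eventually_ge_atTop
      ((|c| + 1) / (S * η)),
    eventually_gt_atTop (0 : ℝ)] with β hβG hβbig hβ
  rcases le_or_gt (spontMag s β) (S * (1 - η)) with hm | hm
  · have h1 : S * η ≤ S - spontMag s β := by nlinarith
    have h2 := mul_le_mul hβbig h1 (by positivity) (Real.rpow_nonneg hβ.le _)
    rw [div_mul_cancel₀ _ (by positivity)] at h2
    linarith [le_abs_self c]
  · have hbound : ∀ μ, S * (1 - η) ≤ μ → μ < spontMag s β →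
        (1 - η) * ∑ j ∈ Finset.range K, gauss (((j : ℝ) + 1) * S / (1 - η) * β) ^ 3 ≤
          (2 * π) ^ 3 * (S - μ) := by
      intro μ hμ1 hμ2
      have hμ0 : 0 < μ := lt_of_lt_of_le (mul_pos hS hη) hμ1
      have hb := infinite_volume_bound hs hβ hμ0 hμ2 K
      rw [← hSdef] at hb
      have hmono : ∀ j : ℕ, ((j : ℝ) + 1) * β * S ^ 2 / μ ≤ ((j : ℝ) + 1) * S / (1 - η) * β := by
        intro j
        refine le_trans (div_le_div_of_nonneg_left (by positivity) (mul_pos hS hη) hμ1)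
          (le_of_eq ?_)
        field_simp
      have h3 : S * ((1 - η) * ∑ j ∈ Finset.range K,
          gauss (((j : ℝ) + 1) * S / (1 - η) * β) ^ 3) ≤ S * ((2 * π) ^ 3 * (S - μ)) := by
        refine le_trans ?_ (le_trans hb (le_of_eq (by ring)))
        rw [← mul_assoc]
        exact mul_le_mul hμ1 (Finset.sum_le_sum fun j _ =>
            pow_le_pow_left₀ (gauss_nonneg _) (gauss_antitone (hmono j)) 3)
          (Finset.sum_nonneg fun j _ => pow_nonneg (gauss_nonneg _) 3) hμ0.le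
      exact le_of_mul_le_mul_left h3 hS
    have hfin : (1 - η) * ∑ j ∈ Finset.range K, gauss (((j : ℝ) + 1) * S / (1 - η) * β) ^ 3 ≤
        (2 * π) ^ 3 * (S - spontMag s β) := by
      refine le_of_forall_pos_le_add fun ε hε => ?_
      have hε' : 0 < ε / (2 * π) ^ 3 := by positivity
      refine le_trans (hbound (max (S * (1 - η)) (spontMag s β - ε / (2 * π) ^ 3))
        (le_max_left _ _) (max_lt hm (by linarith))) ?_
      have := le_max_right (S * (1 - η)) (spontMag s β - ε / (2 * π) ^ 3)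
      have h5 : (2 * π) ^ 3 * (S - max (S * (1 - η)) (spontMag s β - ε / (2 * π) ^ 3)) ≤
          (2 * π) ^ 3 * (S - spontMag s β + ε / (2 * π) ^ 3) :=
        mul_le_mul_of_nonneg_left (by linarith) (by positivity)
      rwa [mul_add, mul_div_cancel₀ _ (by positivity)] at h5
    have heq : (1 - η) / (2 * π) ^ 3 * ∑ j ∈ Finset.range K,
        (Real.sqrt β * gauss (((j : ℝ) + 1) * S / (1 - η) * β)) ^ 3 =
        β ^ (3 / 2 : ℝ) * (((1 - η) * ∑ j ∈ Finset.range K,
          gauss (((j : ℝ) + 1) * S / (1 - η) * β) ^ 3) / (2 * π) ^ 3) := by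
      simp only [mul_pow (Real.sqrt β), ← Finset.mul_sum, rpow_three_halves hβ.le]
      ring
    rw [heq] at hβG
    refine lt_of_lt_of_le hβG (mul_le_mul_of_nonneg_left ?_ (Real.rpow_nonneg hβ.le _))
    rw [div_le_iff₀ (by positivity)]
    linarith

end Vale.Agent.P361
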