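import Vale.Agent.P361.Defs

namespace Vale.Agent.P361

open Matrix Finset

section MonoLemmas

variable {ι : Type*} [DecidableEq ι] [Fintype ι]

omit [Fintype ι] in
theorem mono_apply (f : ι → ι) (c : ι → ℝ) (i j : ι) :
    mono f c i j = if i = f j then c j else 0 := rfl

theorem mono_mul (f g : ι → ι) (c d : ι → ℝ) :
    mono f c * mono g d = mono (f ∘ g) (fun j => c (g j) * d j) := by
  ext i j
  simp only [Matrix.mul_apply, mono_apply, Function.comp, mul_ite, mul_zero,
    Finset.sum_ite_eq', Finset.mem_univ, if_true]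
  split <;> simp

omit [Fintype ι] in
theorem diagonal_eq_mono (c : ι → ℝ) : Matrix.diagonal c = mono id c := by
  ext i j
  rw [mono_apply, diagonal_apply]
  rcases eq_or_ne i j with rfl | h
  · simp
  · simp [h]

omit [Fintype ι] in
theorem mono_congr {f g : ι → ι} {c d : ι → ℝ} (h : f = g) (h' : c = d) :
    mono f c = mono g d := by rw [h, h']

theorem quad_mono (f : ι → ι) (c v : ι → ℝ) :
    v ⬝ᵥ (mono f c *ᵥ v) = ∑ j, c j * v (f j) * v j := by
  simp only [dotProduct, mulVec, mono_apply, ite_mul, zero_mul, Finset.mul_sum]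
  rw [Finset.sum_comm]
  refine Finset.sum_congr rfl fun j _ => ?_
  simp only [mul_ite, mul_zero, Finset.sum_ite_eq', Finset.mem_univ, if_true]
  ring

end MonoLemmas

variable {Λ : Type*} [DecidableEq Λ] [Fintype Λ] {s : ℕ}

omit [DecidableEq Λ] [Fintype Λ] in
theorem cast_val_le (σ : Cfg s Λ) (x : Λ) : ((σ x : ℕ) : ℝ) ≤ s := by
  exact_mod_cast Fin.is_le (σ x)

theorem spM_eq (x : Λ) : spM s x = mono (fun σ : Cfg s Λ => Function.update σ x (σ x - 1))
    (fun σ => Real.sqrt (((σ x : ℕ) : ℝ) * ((s : ℝ) - (σ x : ℕ) + 1))) := by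
  ext i j
  rw [spM, transpose_apply, smM, mono_apply, mono_apply]
  have hiff : j = Function.update i x (i x + 1) ↔ i = Function.update j x (j x - 1) := by
    constructor <;> intro h <;> subst h <;> simp
  by_cases h : j = Function.update i x (i x + 1)
  · rw [if_pos h, if_pos (hiff.1 h)]
    have hx : j x = i x + 1 := by rw [h]; simp
    by_cases hlast : i x = Fin.last s
    · have h0 : j x = 0 := by rw [hx, hlast]; exact Fin.last_add_one s
      simp [h0, hlast]
    · have hv : ((j x : ℕ) : ℝ) = ((i x : ℕ) : ℝ) + 1 := by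
        rw [hx, Fin.val_add_one_of_lt (lt_of_le_of_ne (Fin.le_last _) hlast)]
        push_cast; ring
      rw [hv]
      congr 1; ring
  · rw [if_neg h, if_neg fun h' => h (hiff.2 h')]

theorem spM_transpose (x : Λ) : (spM s x)ᵀ = smM s x := transpose_transpose _

theorem smM_transpose (x : Λ) : (smM s x)ᵀ = spM s x := rfl

theorem szM_transpose (x : Λ) : (szM s x)ᵀ = szM s x := diagonal_transpose _

theorem sz_sz_comm (x y : Λ) : szM s x * szM s y = szM s y * szM s x := by
  simp only [szM, diagonal_mul_diagonal, mul_comm]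

theorem sz_sm_comm {x y : Λ} (h : x ≠ y) : szM s x * smM s y = smM s y * szM s x := by
  simp only [szM, smM, diagonal_eq_mono, mono_mul]
  refine mono_congr rfl (funext fun σ => ?_)
  simp [Function.update_of_ne h, mul_comm]

theorem sm_sm_comm {x y : Λ} (h : x ≠ y) : smM s x * smM s y = smM s y * smM s x := by
  simp only [smM, mono_mul]
  refine mono_congr (funext fun σ => ?_) (funext fun σ => ?_)
  · simp [Function.comp, Function.update_of_ne h, Function.update_of_ne h.symm,
      Function.update_comm h]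
  · simp [Function.update_of_ne h, Function.update_of_ne h.symm, mul_comm]

theorem sp_sm_comm {x y : Λ} (h : x ≠ y) : spM s x * smM s y = smM s y * spM s x := by
  rw [spM_eq]
  simp only [smM, mono_mul]
  refine mono_congr (funext fun σ => ?_) (funext fun σ => ?_)
  · simp [Function.comp, Function.update_of_ne h, Function.update_of_ne h.symm,
      Function.update_comm h]
  · simp [Function.update_of_ne h, Function.update_of_ne h.symm, mul_comm]

theorem sz_sp_comm {x y : Λ} (h : x ≠ y) : szM s x * spM s y = spM s y * szM s x := by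
  have := congrArg Matrix.transpose (sz_sm_comm (s := s) h)
  rw [transpose_mul, transpose_mul, szM_transpose, smM_transpose] at this
  exact this.symm

theorem sm_mul_sp (x : Λ) : smM s x * spM s x = Matrix.diagonal
    (fun σ : Cfg s Λ => ((σ x : ℕ) : ℝ) * ((s : ℝ) - (σ x : ℕ) + 1)) := by
  rw [spM_eq, smM, mono_mul, diagonal_eq_mono]
  refine mono_congr (funext fun σ => by simp [Function.comp]) (funext fun σ => ?_)
  simp only [Function.update_self]
  have hn : 0 ≤ ((σ x : ℕ) : ℝ) * ((s : ℝ) - (σ x : ℕ) + 1) :=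
    mul_nonneg (Nat.cast_nonneg _) (by linarith [cast_val_le σ x])
  by_cases h0 : σ x = 0
  · simp [h0]
  · have hv : (((σ x - 1 : Fin (s + 1)) : ℕ) : ℝ) = ((σ x : ℕ) : ℝ) - 1 := by
      rw [Fin.coe_sub_one, if_neg h0, Nat.cast_sub]
      · simp
      · exact Nat.one_le_iff_ne_zero.2 (fun h => h0 (Fin.ext h))
    rw [hv]
    rw [show ((σ x : ℕ) : ℝ) - 1 + 1 = (σ x : ℕ) by ring,
      show (s : ℝ) - (((σ x : ℕ) : ℝ) - 1) = (s : ℝ) - (σ x : ℕ) + 1 by ring,
      Real.mul_self_sqrt hn]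

theorem sp_mul_sm (x : Λ) : spM s x * smM s x = Matrix.diagonal
    (fun σ : Cfg s Λ => (((σ x : ℕ) : ℝ) + 1) * ((s : ℝ) - (σ x : ℕ))) := by
  rw [spM_eq, smM, mono_mul, diagonal_eq_mono]
  refine mono_congr (funext fun σ => by simp [Function.comp]) (funext fun σ => ?_)
  simp only [Function.update_self]
  have hn : 0 ≤ (((σ x : ℕ) : ℝ) + 1) * ((s : ℝ) - (σ x : ℕ)) :=
    mul_nonneg (by positivity) (by linarith [cast_val_le σ x])
  by_cases h0 : σ x = Fin.last s
  · simp [h0]
  · have hv : (((σ x + 1 : Fin (s + 1)) : ℕ) : ℝ) = ((σ x : ℕ) : ℝ) + 1 := by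
      rw [Fin.val_add_one_of_lt (lt_of_le_of_ne (Fin.le_last _) h0)]
      push_cast; ring
    rw [hv]
    rw [show (s : ℝ) - (((σ x : ℕ) : ℝ) + 1) + 1 = (s : ℝ) - (σ x : ℕ) by ring,
      Real.mul_self_sqrt hn]

theorem sp_sm_bracket (x : Λ) :
    spM s x * smM s x - smM s x * spM s x = (2 : ℝ) • szM (Λ := Λ) s x := by
  rw [sp_mul_sm, sm_mul_sp, szM, diagonal_sub, ← diagonal_smul]
  refine congrArg _ (funext fun σ => ?_)
  simp only [Pi.smul_apply, smul_eq_mul]
  ring

theorem sz_sm_bracket (x : Λ) : szM s x * smM s x - smM s x * szM s x = -smM (Λ := Λ) s x := by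
  simp only [szM, smM, diagonal_eq_mono, mono_mul]
  ext i j
  simp only [Matrix.sub_apply, Matrix.neg_apply, mono_apply, Function.comp, id]
  split
  · simp only [Function.update_self]
    by_cases h0 : j x = Fin.last s
    · simp [h0]
    · rw [Fin.val_add_one_of_lt (lt_of_le_of_ne (Fin.le_last _) h0)]
      push_cast; ring
  · simp

theorem sp_sz_bracket (x : Λ) : spM s x * szM s x - szM s x * spM s x = -spM (Λ := Λ) s x := by
  have := congrArg Matrix.transpose (sz_sm_bracket (s := s) x)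
  rw [transpose_sub, transpose_neg, transpose_mul, transpose_mul, szM_transpose,
    smM_transpose] at this
  rw [← this]

theorem heis_comm {x y : Λ} (h : x ≠ y) : heis s x y = heis s y x := by
  unfold heis
  rw [sz_sz_comm, sp_sm_comm h, ← sp_sm_comm h.symm, add_comm (smM s y * spM s x)]

theorem heis_transpose {x y : Λ} (h : x ≠ y) : (heis s x y)ᵀ = heis s x y := by
  simp only [heis, transpose_add, transpose_smul, transpose_mul, szM_transpose, spM_transpose,
    smM_transpose]
  rw [sz_sz_comm, sp_sm_comm h.symm, ← sp_sm_comm h, add_comm (smM s x * spM s y)]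

theorem heis_sm_bracket {x y : Λ} (h : x ≠ y) :
    heis s x y * smM s x - smM s x * heis s x y =
      szM s x * smM s y - smM s x * szM s y := by
  have e1 : szM s x * szM s y * smM s x = szM s x * smM s x * szM s y := by
    rw [Matrix.mul_assoc, sz_sm_comm h.symm, ← Matrix.mul_assoc]
  have e2 : spM s x * smM s y * smM s x = spM s x * smM s x * smM s y := by
    rw [Matrix.mul_assoc, sm_sm_comm h.symm, ← Matrix.mul_assoc]
  have e3 : smM s x * spM s y * smM s x = smM s x * (smM s x * spM s y) := by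
    rw [Matrix.mul_assoc, sp_sm_comm h.symm]
  simp only [heis, Matrix.add_mul, Matrix.mul_add, Matrix.smul_mul, Matrix.mul_smul, e1, e2, e3,
    ← Matrix.mul_assoc (smM s x) (szM s x), ← Matrix.mul_assoc (smM s x) (spM s x)]
  rw [show ∀ a b c d e f : Matrix (Cfg s Λ) (Cfg s Λ) ℝ,
      a + (2 : ℝ)⁻¹ • (b + c) - (d + (2 : ℝ)⁻¹ • (e + f)) =
        (a - d) + (2 : ℝ)⁻¹ • (b - e) + (2 : ℝ)⁻¹ • (c - f) by
    intros; module]
  rw [← Matrix.sub_mul, ← Matrix.sub_mul, sz_sm_bracket, sp_sm_bracket, sub_self, smul_zero,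
    add_zero, Matrix.smul_mul, smul_smul, inv_mul_cancel₀ (two_ne_zero' ℝ), one_smul,
    Matrix.neg_mul]
  abel

theorem heis_sm_other {x y w : Λ} (hx : w ≠ x) (hy : w ≠ y) :
    heis s x y * smM s w = smM s w * heis s x y := by
  simp only [heis, Matrix.add_mul, Matrix.mul_add, Matrix.smul_mul, Matrix.mul_smul,
    Matrix.mul_assoc]
  rw [sz_sm_comm hy.symm, sp_sm_comm hy.symm, sm_sm_comm hy.symm]
  simp only [← Matrix.mul_assoc]
  rw [sz_sm_comm hx.symm, sp_sm_comm hx.symm, sm_sm_comm hx.symm]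

/-- `∑ u_x S^+_x`. -/
noncomputable def wave (s : ℕ) (u : Λ → ℝ) : Matrix (Cfg s Λ) (Cfg s Λ) ℝ := ∑ x, u x • spM s x

theorem wave_transpose (u : Λ → ℝ) : (wave s u)ᵀ = ∑ x, u x • smM s x := by
  simp [wave, transpose_sum, spM_transpose]

theorem wave_bracket (u : Λ → ℝ) :
    wave s u * (wave s u)ᵀ - (wave s u)ᵀ * wave s u = ∑ x, (2 * u x ^ 2) • szM s x := by
  rw [wave_transpose, wave]
  simp only [Matrix.sum_mul, Matrix.mul_sum, Matrix.smul_mul, Matrix.mul_smul, Finset.smul_sum,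
    smul_smul]
  conv_lhs =>
    arg 2
    rw [Finset.sum_comm]
  rw [← Finset.sum_sub_distrib]
  refine Finset.sum_congr rfl fun x _ => ?_
  rw [← Finset.sum_sub_distrib, Finset.sum_eq_single x]
  · rw [← smul_sub, sp_sm_bracket, smul_smul]
    congr 1; ring
  · intro y _ hy
    rw [sp_sm_comm hy, mul_comm, sub_self]
  · simp

theorem wave_sz_bracket (u : Λ → ℝ) :
    (∑ x : Λ, szM s x) * (wave s u)ᵀ - (wave s u)ᵀ * (∑ x : Λ, szM s x) = -(wave s u)ᵀ := by
  rw [wave_transpose]
  simp only [Matrix.sum_mul, Matrix.mul_sum, Matrix.smul_mul, Matrix.mul_smul, Finset.smul_sum]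
  conv_lhs =>
    arg 2
    rw [Finset.sum_comm]
  rw [← Finset.sum_sub_distrib, ← Finset.sum_neg_distrib]
  refine Finset.sum_congr rfl fun x _ => ?_
  rw [← Finset.sum_sub_distrib, Finset.sum_eq_single x]
  · rw [← smul_sub, sz_sm_bracket, smul_neg]
  · intro y _ hy
    rw [sz_sm_comm hy, sub_self]
  · simp

theorem wave_heis_bracket (u : Λ → ℝ) {x y : Λ} (h : x ≠ y) :
    wave s u * (heis s x y * (wave s u)ᵀ - (wave s u)ᵀ * heis s x y) -
      (heis s x y * (wave s u)ᵀ - (wave s u)ᵀ * heis s x y) * wave s u =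
    -((u x - u y) • ((2 * (u x - u y)) • (szM s x * szM s y) + u x • (spM s x * smM s y) -
      u y • (smM s x * spM s y))) := by
  set Q := szM s x * smM s y - smM s x * szM s y with hQ
  have hx' := heis_sm_bracket (s := s) h
  have hy' : heis s x y * smM s y - smM s y * heis s x y = -Q := by
    rw [heis_comm h, heis_sm_bracket h.symm, hQ, sz_sm_comm h.symm, ← sz_sm_comm h]
    abel
  have hin : heis s x y * (wave s u)ᵀ - (wave s u)ᵀ * heis s x y = (u x - u y) • Q := by
    rw [wave_transpose]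
    simp only [Matrix.sum_mul, Matrix.mul_sum, Matrix.smul_mul, Matrix.mul_smul]
    rw [← Finset.sum_sub_distrib, Finset.sum_eq_add x y h]
    · rw [← smul_sub, ← smul_sub, hx', hy', ← hQ, smul_neg, sub_smul, sub_eq_add_neg (u x • Q)]
    · intro w _ hw
      rw [heis_sm_other hw.1 hw.2, sub_self]
    all_goals simp
  rw [hin]
  have hother : ∀ w, w ≠ x → w ≠ y → spM s w * Q = Q * spM s w := by
    intro w hwx hwy
    simp only [hQ, Matrix.mul_sub, Matrix.sub_mul]
    congr 1
    · rw [← Matrix.mul_assoc, ← sz_sp_comm hwx.symm, Matrix.mul_assoc, sp_sm_comm hwy,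
        ← Matrix.mul_assoc]
    · rw [← Matrix.mul_assoc, sp_sm_comm hwx, Matrix.mul_assoc, ← sz_sp_comm hwy.symm,
        ← Matrix.mul_assoc]
  have hpx : spM s x * Q - Q * spM s x =
      -(spM s x * smM s y) - (2 : ℝ) • (szM s x * szM s y) := by
    have a1 : szM s x * smM s y * spM s x = szM s x * spM s x * smM s y := by
      rw [Matrix.mul_assoc, ← sp_sm_comm h, ← Matrix.mul_assoc]
    have a2 : smM s x * szM s y * spM s x = smM s x * spM s x * szM s y := by
      rw [Matrix.mul_assoc, sz_sp_comm h.symm, ← Matrix.mul_assoc]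
    simp only [hQ, Matrix.mul_sub, Matrix.sub_mul, a1, a2, ← Matrix.mul_assoc (spM s x)]
    rw [show ∀ a b c d : Matrix (Cfg s Λ) (Cfg s Λ) ℝ, a - b - (c - d) = (a - c) - (b - d) by
      intros; abel, ← Matrix.sub_mul, ← Matrix.sub_mul, sp_sz_bracket, sp_sm_bracket,
      Matrix.neg_mul, Matrix.smul_mul]
  have hpy : spM s y * Q - Q * spM s y =
      (2 : ℝ) • (szM s x * szM s y) + smM s x * spM s y := by
    simp only [hQ, Matrix.mul_sub, Matrix.sub_mul]
    rw [← Matrix.mul_assoc, ← Matrix.mul_assoc, ← sz_sp_comm h, sp_sm_comm h.symm,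
      show ∀ a b c d : Matrix (Cfg s Λ) (Cfg s Λ) ℝ, a - b - (c - d) = (a - c) - (b - d) by
        intros; abel]
    simp only [Matrix.mul_assoc]
    rw [← Matrix.mul_sub, ← Matrix.mul_sub, sp_sm_bracket, sp_sz_bracket, Matrix.mul_smul,
      Matrix.mul_neg, sub_neg_eq_add]
  have hout : wave s u * Q - Q * wave s u =
      u x • (-(spM s x * smM s y) - (2 : ℝ) • (szM s x * szM s y)) +
        u y • ((2 : ℝ) • (szM s x * szM s y) + smM s x * spM s y) := by
    rw [wave]
    simp only [Matrix.sum_mul, Matrix.mul_sum, Matrix.smul_mul, Matrix.mul_smul]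
    rw [← Finset.sum_sub_distrib, Finset.sum_eq_add x y h]
    · rw [← smul_sub, ← smul_sub, hpx, hpy]
    · intro w _ hw
      rw [hother w hw.1 hw.2, sub_self]
    all_goals simp
  rw [Matrix.mul_smul, Matrix.smul_mul, ← smul_sub, hout]
  module

theorem sz_sz_quad (x y : Λ) (v : Cfg s Λ → ℝ) :
    v ⬝ᵥ ((szM s x * szM s y) *ᵥ v) ≤ ((s : ℝ) / 2) ^ 2 * (v ⬝ᵥ v) := by
  simp only [szM, diagonal_mul_diagonal, dotProduct, mulVec_diagonal, Finset.mul_sum]
  refine Finset.sum_le_sum fun σ _ => ?_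
  have hx := cast_val_le σ x
  have hy := cast_val_le σ y
  have hx0 : (0 : ℝ) ≤ (σ x : ℕ) := Nat.cast_nonneg _
  have hy0 : (0 : ℝ) ≤ (σ y : ℕ) := Nat.cast_nonneg _
  have h : ((s : ℝ) / 2 - (σ x : ℕ)) * ((s : ℝ) / 2 - (σ y : ℕ)) ≤ ((s : ℝ) / 2) ^ 2 := by
    nlinarith [mul_nonneg hx0 (sub_nonneg.2 hy), mul_nonneg hy0 (sub_nonneg.2 hx)]
  nlinarith [mul_le_mul_of_nonneg_right h (mul_self_nonneg (v σ))]

/-- The quadratic form bound `S_x · S_y ≤ S^2`, written with `S^+_x S^-_y`. -/
theorem exchange_quad {x y : Λ} (h : x ≠ y) (v : Cfg s Λ → ℝ) :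
    v ⬝ᵥ ((szM s x * szM s y + spM s x * smM s y) *ᵥ v) ≤ ((s : ℝ) / 2) ^ 2 * (v ⬝ᵥ v) := by
  rw [Matrix.add_mulVec, dotProduct_add, spM_eq, smM, mono_mul, quad_mono]
  simp only [szM, diagonal_mul_diagonal, dotProduct, mulVec_diagonal, Finset.mul_sum]
  simp only [Function.update_of_ne h]
  set f : Cfg s Λ → Cfg s Λ := (fun σ => Function.update σ x (σ x - 1)) ∘
    fun σ => Function.update σ y (σ y + 1) with hf
  have hbij : Function.Bijective f := by
    apply Function.Bijective.comp <;>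
      refine ⟨fun a b hab => ?_, fun b => ?_⟩
    · funext w
      have := congrFun hab w
      rcases eq_or_ne w x with rfl | hw
      · simpa using this
      · simpa [hw] using this
    · exact ⟨Function.update b x (b x + 1), by simp⟩
    · funext w
      have := congrFun hab w
      rcases eq_or_ne w y with rfl | hw
      · simpa using this
      · simpa [hw] using this
    · exact ⟨Function.update b y (b y - 1), by simp⟩
  set F : Cfg s Λ → ℝ := fun σ => ((σ y : ℕ) : ℝ) * ((s : ℝ) - (σ x : ℕ)) with hF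
  set G : Cfg s Λ → ℝ := fun σ => ((σ x : ℕ) : ℝ) * ((s : ℝ) - (σ y : ℕ)) with hG
  have hF0 : ∀ σ, 0 ≤ F σ := fun σ =>
    mul_nonneg (Nat.cast_nonneg _) (sub_nonneg.2 (cast_val_le σ x))
  have hG0 : ∀ σ, 0 ≤ G σ := fun σ =>
    mul_nonneg (Nat.cast_nonneg _) (sub_nonneg.2 (cast_val_le σ y))
  have hpt : ∀ σ, Real.sqrt (((σ x : ℕ) : ℝ) * ((s : ℝ) - (σ x : ℕ) + 1)) *
      Real.sqrt ((((σ y : ℕ) : ℝ) + 1) * ((s : ℝ) - (σ y : ℕ))) * v (f σ) * v σ ≤
      F (f σ) * (v (f σ)) ^ 2 / 2 + G σ * (v σ) ^ 2 / 2 := by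
    intro σ
    by_cases hzero : σ x = 0 ∨ σ y = Fin.last s
    · have : Real.sqrt (((σ x : ℕ) : ℝ) * ((s : ℝ) - (σ x : ℕ) + 1)) *
          Real.sqrt ((((σ y : ℕ) : ℝ) + 1) * ((s : ℝ) - (σ y : ℕ))) = 0 := by
        rcases hzero with h0 | h0 <;> simp [h0]
      rw [this]
      have := mul_nonneg (hF0 (f σ)) (sq_nonneg (v (f σ)))
      have := mul_nonneg (hG0 σ) (sq_nonneg (v σ))
      simp only [zero_mul]
      linarith
    · push Not at hzero
      have hfx : ((f σ x : ℕ) : ℝ) = ((σ x : ℕ) : ℝ) - 1 := by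
        simp only [hf, Function.comp, Function.update_self, Function.update_of_ne h]
        rw [Fin.coe_sub_one, if_neg hzero.1, Nat.cast_sub]
        · simp
        · exact Nat.one_le_iff_ne_zero.2 (fun h' => hzero.1 (Fin.ext h'))
      have hfy : ((f σ y : ℕ) : ℝ) = ((σ y : ℕ) : ℝ) + 1 := by
        simp only [hf, Function.comp, Function.update_of_ne h.symm, Function.update_self]
        rw [Fin.val_add_one_of_lt (lt_of_le_of_ne (Fin.le_last _) hzero.2)]
        push_cast; ring
      have hprod : Real.sqrt (((σ x : ℕ) : ℝ) * ((s : ℝ) - (σ x : ℕ) + 1)) *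
          Real.sqrt ((((σ y : ℕ) : ℝ) + 1) * ((s : ℝ) - (σ y : ℕ))) =
          Real.sqrt (F (f σ)) * Real.sqrt (G σ) := by
        rw [← Real.sqrt_mul (mul_nonneg (Nat.cast_nonneg _) (by linarith [cast_val_le σ x])),
          ← Real.sqrt_mul (hF0 _)]
        simp only [hF, hG, hfx, hfy]
        congr 1; ring
      rw [hprod]
      nlinarith [Real.mul_self_sqrt (hF0 (f σ)), Real.mul_self_sqrt (hG0 σ),
        mul_self_nonneg (Real.sqrt (F (f σ)) * v (f σ) - Real.sqrt (G σ) * v σ)]
  refine le_trans (add_le_add le_rfl (Finset.sum_le_sum fun σ _ => hpt σ)) ?_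
  rw [Finset.sum_add_distrib, hbij.sum_comp (fun σ => F σ * v σ ^ 2 / 2),
    ← Finset.sum_add_distrib, ← Finset.sum_add_distrib]
  refine Finset.sum_le_sum fun σ _ => le_of_eq ?_
  simp only [hF, hG]
  ring

theorem heis_quad {x y : Λ} (h : x ≠ y) (v : Cfg s Λ → ℝ) :
    v ⬝ᵥ (heis s x y *ᵥ v) = v ⬝ᵥ ((szM s x * szM s y + spM s x * smM s y) *ᵥ v) := by
  have ht : v ⬝ᵥ ((smM s x * spM s y) *ᵥ v) = v ⬝ᵥ ((spM s x * smM s y) *ᵥ v) := by
    rw [show smM s x * spM s y = (spM s x * smM s y)ᵀ by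
      rw [transpose_mul, spM_transpose, smM_transpose, sp_sm_comm h.symm],
      dotProduct_mulVec, Matrix.vecMul_transpose, dotProduct_comm]
  simp only [heis, Matrix.add_mulVec, dotProduct_add, Matrix.smul_mulVec, dotProduct_smul,
    smul_eq_mul, ht]
  ring

theorem heis_diag_zero {x y : Λ} (h : x ≠ y) :
    heis s x y 0 0 = ((s : ℝ) / 2) ^ 2 := by
  simp only [heis, Matrix.add_apply, Matrix.smul_apply, szM, diagonal_mul_diagonal]
  rw [spM_eq, spM_eq]
  simp only [smM, mono_mul, mono_apply]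
  simp [Function.update_of_ne h, sq]

end Vale.Agent.P361
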